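import Vale.Agent.P196.Amen.Maps

/-!
P196, module A: one coordinate of the odometer, the rows it defines and the good front sets.
-/

noncomputable section

namespace Vale.Agent.P196.Amen

/-- An equivariant system of periodic factors along one coordinate of the lattice. -/
structure Axis (S : SFT) where
  Q : ℕ → ℕ
  Q_pos : ∀ n, 0 < Q n
  Q_dvd : ∀ n, Q n ∣ Q (n + 1)
  Q_strict : StrictMono Q
  e : V
  π : V →+ ℤ
  π_e : π e = 1
  θ : ∀ n, S.X → ZMod (Q n)
  θ_local : ∀ n, S.IsLocal (θ n)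
  θ_act : ∀ n v x, θ n (S.act v x) = θ n x + (π v : ZMod (Q n))
  θ_compat : ∀ n x, ZMod.castHom (Q_dvd n) (ZMod (Q n)) (θ (n + 1) x) = θ n x

variable {S : SFT}

/-- The first coordinate of an odometer. -/
def axis₁ (O : S.Odometer) : Axis S where
  Q := O.Q
  Q_pos := O.Q_pos
  Q_dvd := O.Q_dvd
  Q_strict := O.Q_strict
  e := (1, 0)
  π := AddMonoidHom.fst ℤ ℤ
  π_e := rfl
  θ n x := (O.pos n x).1
  θ_local n := isLocal_comp (O.pos_local n) Prod.fst
  θ_act n v x := by rw [O.pos_act]; rfl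
  θ_compat n x := congrArg Prod.fst (O.pos_compat n x)

/-- The second coordinate of an odometer. -/
def axis₂ (O : S.Odometer) : Axis S where
  Q := O.Q
  Q_pos := O.Q_pos
  Q_dvd := O.Q_dvd
  Q_strict := O.Q_strict
  e := (0, 1)
  π := AddMonoidHom.snd ℤ ℤ
  π_e := rfl
  θ n x := (O.pos n x).2
  θ_local n := isLocal_comp (O.pos_local n) Prod.snd
  θ_act n v x := by rw [O.pos_act]; rfl
  θ_compat n x := congrArg Prod.snd (O.pos_compat n x)

namespace Axis

variable (a : Axis S) (ξ : ∀ n, ZMod (a.Q n))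

/-- The fibre. -/
def fibre : Set S.X := {x | ∀ n, a.θ n x = ξ n}

theorem fibre_axis₁ (O : S.Odometer) (ξ : ∀ n, ZMod (O.Q n)) :
    (axis₁ O).fibre ξ = O.fibre₁ ξ := rfl

theorem fibre_axis₂ (O : S.Odometer) (η : ∀ n, ZMod (O.Q n)) :
    (axis₂ O).fibre η = O.fibre₂ η := rfl

theorem π_zsmul (i : ℤ) : a.π (i • a.e) = i := by
  rw [map_zsmul, a.π_e, smul_eq_mul, mul_one]

theorem θ_act_e (n : ℕ) (i : ℤ) (x : S.X) :
    a.θ n (S.act (i • a.e) x) = a.θ n x + (i : ZMod (a.Q n)) := by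
  rw [a.θ_act, π_zsmul]

/-- `x` lies in the row `i`. -/
def AtRow (x : S.X) (i : ℤ) : Prop := ∀ n, a.θ n x = ξ n + (i : ZMod (a.Q n))

theorem le_Q (n : ℕ) : n + 1 ≤ a.Q n := by
  induction n with
  | zero => exact a.Q_pos 0
  | succ n ih => exact Nat.succ_le_of_lt (lt_of_le_of_lt ih (a.Q_strict n.lt_succ_self))

variable {a ξ}

theorem AtRow.unique {x : S.X} {i j : ℤ} (hi : a.AtRow ξ x i) (hj : a.AtRow ξ x j) : i = j := by
  have h : ((i - j : ℤ) : ZMod (a.Q (i - j).natAbs)) = 0 := by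
    have := (hi (i - j).natAbs).symm.trans (hj (i - j).natAbs)
    push_cast
    rw [sub_eq_zero]
    exact add_left_cancel this
  rw [ZMod.intCast_zmod_eq_zero_iff_dvd] at h
  have h2 := a.le_Q (i - j).natAbs
  by_contra hne
  have h3 : a.Q (i - j).natAbs ≤ (i - j).natAbs :=
    Nat.le_of_dvd (by omega) (Int.natCast_dvd.1 h)
  omega

theorem atRow_zero {x : S.X} : a.AtRow ξ x 0 ↔ x ∈ a.fibre ξ := by
  simp [AtRow, fibre]

theorem AtRow.act {x : S.X} {i : ℤ} (h : a.AtRow ξ x i) (v : V) :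
    a.AtRow ξ (S.act v x) (i + a.π v) := by
  intro n
  rw [a.θ_act, h n]
  push_cast
  ring

theorem AtRow.mem_fibre {x : S.X} {i : ℤ} (h : a.AtRow ξ x i) :
    S.act ((-i) • a.e) x ∈ a.fibre ξ := by
  rw [← atRow_zero]
  have := h.act ((-i) • a.e)
  rwa [π_zsmul, add_neg_cancel] at this

theorem atRow_of_mem {w : S.X} (h : w ∈ a.fibre ξ) (i : ℤ) :
    a.AtRow ξ (S.act (i • a.e) w) i := by
  have := (atRow_zero.2 h).act (i • a.e)
  rwa [π_zsmul, zero_add] at this

variable (a ξ)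

/-- The approximation of the fibre at level `n`. -/
def level (n : ℕ) : Set S.X := {x | a.θ n x = ξ n}

theorem isClopen_level (n : ℕ) : IsClopen (a.level ξ n) :=
  isClopen_of_isLocal (isLocal_comp (a.θ_local n) fun t => t = ξ n)

variable {C : Type} {dom : C → Set S.X}

/-- A front set: a union of rows, full far above and empty far below, with local slices. -/
structure Good (U : Set (Pt dom)) : Prop where
  row : ∀ p ∈ U, ∃ i, a.AtRow ξ p.1.2 i
  shape : ∃ I₁ I₂ : ℤ, ∃ r : ℕ, I₁ ≤ I₂ ∧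
    (∀ p : Pt dom, ∀ i, a.AtRow ξ p.1.2 i → I₂ ≤ i → p ∈ U) ∧
    (∀ p : Pt dom, ∀ i, a.AtRow ξ p.1.2 i → i < I₁ → p ∉ U) ∧
    ∀ p q : Pt dom, ∀ i, a.AtRow ξ p.1.2 i → a.AtRow ξ q.1.2 i → p.1.1 = q.1.1 →
      S.AgreeOn (SFT.box r) (S.act ((-i) • a.e) p.1.2) (S.act ((-i) • a.e) q.1.2) →
        (p ∈ U ↔ q ∈ U)

/-- A condition holding on the fibre holds on one of its approximations. -/
theorem exists_level (hc : ∀ n x, a.θ (n + 1) x = ξ (n + 1) → a.θ n x = ξ n) (P : S.X → Prop)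
    (hP : S.IsLocal P) (h : ∀ x ∈ a.fibre ξ, P x) (N₀ : ℕ) :
    ∃ N, N₀ ≤ N ∧ ∀ x, a.θ N x = ξ N → P x := by
  by_contra hne
  push Not at hne
  set t : ℕ → Set S.X := fun n => a.level ξ (N₀ + n) ∩ {x | ¬ P x} with ht
  have hclosed : ∀ n, IsClosed (t n) := fun n =>
    (a.isClopen_level ξ _).isClosed.inter (isClopen_of_isLocal hP).compl.isClosed
  obtain ⟨x, hx⟩ := IsCompact.nonempty_iInter_of_sequence_nonempty_isCompact_isClosed t
    (fun n y hy => ⟨hc _ y hy.1, hy.2⟩) (fun n => hne (N₀ + n) (Nat.le_add_right _ _)) (hclosed 0).isCompact hclosed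
  · rw [Set.mem_iInter] at hx
    refine (hx 0).2 (h x fun n => ?_)
    have key : ∀ m n, n ≤ m → a.θ m x = ξ m → a.θ n x = ξ n := by
      intro m n hnm
      induction m, hnm using Nat.le_induction with
      | base => exact id
      | succ m _ ih => exact fun hm => ih (hc m x hm)
    exact key (N₀ + n) n (by omega) (hx n).1

theorem compat_of_nonempty (hne : (a.fibre ξ).Nonempty) (n : ℕ) (x : S.X)
    (hx : a.θ (n + 1) x = ξ (n + 1)) : a.θ n x = ξ n := by
  obtain ⟨z, hz⟩ := hne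
  rw [← a.θ_compat n x, hx, ← hz (n + 1), a.θ_compat, hz n]

end Axis

end Vale.Agent.P196.Amen
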