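import Mathlib

/-!
P196: amenability of discrete groups, independent of any model: Følner sets, almost invariant
finitely supported probability vectors, and the closure properties used for module A.
-/

noncomputable section

namespace Vale.Agent.P196.Amen

open Finsupp Finset

universe u v

variable {α : Type u} {β : Type v}

/-- The norm of summable functions, on finitely supported vectors. -/
def n1 (p : α →₀ ℝ) : ℝ := p.sum fun _ a => |a|

theorem n1_nonneg (p : α →₀ ℝ) : 0 ≤ n1 p := Finset.sum_nonneg fun _ _ => abs_nonneg _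

theorem n1_zero : n1 (0 : α →₀ ℝ) = 0 := by simp [n1]

theorem n1_eq_sum {p : α →₀ ℝ} {s : Finset α} (h : p.support ⊆ s) : n1 p = ∑ x ∈ s, |p x| :=
  Finsupp.sum_of_support_subset p h _ fun _ _ => abs_zero

theorem n1_add_le (p q : α →₀ ℝ) : n1 (p + q) ≤ n1 p + n1 q := by
  classical
  rw [n1_eq_sum (p := p + q) (s := p.support ∪ q.support) Finsupp.support_add,
    n1_eq_sum (p := p) (s := p.support ∪ q.support) subset_union_left,
    n1_eq_sum (p := q) (s := p.support ∪ q.support) subset_union_right, ← Finset.sum_add_distrib]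
  exact Finset.sum_le_sum fun x _ => by rw [Finsupp.add_apply]; exact abs_add_le _ _

theorem n1_smul (c : ℝ) (p : α →₀ ℝ) : n1 (c • p) = |c| * n1 p := by
  classical
  rw [n1_eq_sum (p := c • p) (s := p.support) Finsupp.support_smul, n1, Finsupp.sum,
    Finset.mul_sum]
  exact Finset.sum_congr rfl fun x _ => by rw [Finsupp.smul_apply, smul_eq_mul, abs_mul]

theorem n1_neg (p : α →₀ ℝ) : n1 (-p) = n1 p := by
  rw [← neg_one_smul ℝ p, n1_smul, abs_neg, abs_one, one_mul]

theorem n1_sum_le {ι : Type*} (s : Finset ι) (f : ι → α →₀ ℝ) :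
    n1 (∑ i ∈ s, f i) ≤ ∑ i ∈ s, n1 (f i) := by
  classical
  induction s using Finset.induction_on with
  | empty => simp [n1_zero]
  | @insert a s ha ih =>
    rw [Finset.sum_insert ha, Finset.sum_insert ha]
    exact (n1_add_le _ _).trans (by linarith)

theorem n1_single (a : α) (r : ℝ) : n1 (single a r) = |r| := by simp [n1]

theorem n1_mapDomain_le (f : α → β) (p : α →₀ ℝ) : n1 (mapDomain f p) ≤ n1 p := by
  refine (n1_sum_le p.support _).trans (le_of_eq ?_)
  exact Finset.sum_congr rfl fun x _ => n1_single _ _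

/-- A finitely supported probability vector. -/
structure IsProb (p : α →₀ ℝ) : Prop where
  nonneg : ∀ x, 0 ≤ p x
  mass : (p.sum fun _ a => a) = 1

theorem IsProb.n1_eq {p : α →₀ ℝ} (h : IsProb p) : n1 p = 1 := by
  rw [← h.mass]
  exact Finset.sum_congr rfl fun x _ => abs_of_nonneg (h.nonneg x)

theorem mapDomain_nonneg {p : α →₀ ℝ} (h : ∀ x, 0 ≤ p x) (f : α → β) (y : β) :
    0 ≤ mapDomain f p y := by
  classical
  rw [mapDomain, Finsupp.sum, Finsupp.finsetSum_apply]
  exact Finset.sum_nonneg fun x _ => by
    rw [single_apply]; split <;> [exact h x; exact le_rfl]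

theorem IsProb.map {p : α →₀ ℝ} (h : IsProb p) (f : α → β) : IsProb (mapDomain f p) :=
  ⟨mapDomain_nonneg h.nonneg f, by
    rw [Finsupp.sum_mapDomain_index (fun _ => rfl) (fun _ _ _ => rfl), h.mass]⟩

theorem isProb_single (a : α) : IsProb (single a (1 : ℝ)) := by
  classical
  exact ⟨fun x => by rw [single_apply]; split <;> norm_num, by simp⟩

section

variable (G : Type u) [Group G]

open scoped Classical in
/-- Følner's condition, as in the problem. -/
def Folner : Prop :=
  ∀ K : Finset G, ∀ ε : ℝ, 0 < ε → ∃ D : Finset G, D.Nonempty ∧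
    ∀ g ∈ K, ((symmDiff (D.image fun x => g * x) D).card : ℝ) < ε * D.card

/-- Reiter's condition: almost invariant probability vectors. -/
def Reiter : Prop :=
  ∀ K : Finset G, ∀ ε : ℝ, 0 < ε → ∃ p : G →₀ ℝ, IsProb p ∧
    ∀ g ∈ K, n1 (mapDomain (fun x => g * x) p - p) ≤ ε

end

variable {G : Type u} [Group G]

/-- One layer of a nonnegative vector. -/
theorem folner_step [DecidableEq G] {K : Finset G} {ε : ℝ} :
    ∀ p : G →₀ ℝ, (∀ x, 0 ≤ p x) →
      (∑ g ∈ K, n1 (mapDomain (fun x => g * x) p - p)) < ε * n1 p →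
      ∃ D : Finset G, D.Nonempty ∧
        (∑ g ∈ K, ((symmDiff (D.image fun x => g * x) D).card : ℝ)) < ε * D.card := by
  intro p
  induction h : p.support.card using Nat.strong_induction_on generalizing p with
  | _ N ih =>
    intro hp hlt
    subst h
    set S := p.support with hS
    rcases S.eq_empty_or_nonempty with h0 | hne
    · rw [Finsupp.support_eq_empty.1 h0, n1_zero, mul_zero] at hlt
      exact absurd hlt (not_lt.2 (Finset.sum_nonneg fun g _ => n1_nonneg _))
    by_cases hgood : (∑ g ∈ K, ((symmDiff (S.image fun x => g * x) S).card : ℝ)) < ε * S.card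
    · exact ⟨S, hne, hgood⟩
    obtain ⟨a, ha, hmin⟩ := S.exists_min_image p hne
    set c := p a with hc
    have hc0 : 0 < c := lt_of_le_of_ne (hp a) (Finsupp.mem_support_iff.1 ha).symm
    set one : G →₀ ℝ := Finsupp.indicator S fun _ _ => (1 : ℝ) with hone
    set q : G →₀ ℝ := p - c • one with hq
    have hqx : ∀ x, q x = if x ∈ S then p x - c else 0 := by
      intro x
      rw [hq, Finsupp.sub_apply, Finsupp.smul_apply, hone, Finsupp.indicator_apply]
      by_cases hx : x ∈ S
      · simp [hx]
      · simp [hx, Finsupp.notMem_support_iff.1 hx]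
    have hq0 : ∀ x, 0 ≤ q x := by
      intro x
      rw [hqx]
      split
      · next hx => linarith [hmin x hx]
      · exact le_rfl
    have hsub : q.support ⊆ S.erase a := by
      intro x hx
      rw [Finsupp.mem_support_iff, hqx] at hx
      by_cases hxS : x ∈ S
      · refine mem_erase.2 ⟨?_, hxS⟩
        rintro rfl
        simp [hxS, hc] at hx
      · simp [hxS] at hx
    have hcard : q.support.card < S.card :=
      lt_of_le_of_lt (card_le_card hsub) (card_lt_card (erase_ssubset ha))
    have hn1 : n1 p = n1 q + c * S.card := by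
      rw [n1, Finsupp.sum, ← hS, n1_eq_sum (hsub.trans (erase_subset _ _)), mul_comm,
        ← nsmul_eq_mul, ← Finset.sum_const, ← Finset.sum_add_distrib]
      refine Finset.sum_congr rfl fun x hx => ?_
      rw [abs_of_nonneg (hp x), abs_of_nonneg (hq0 x), hqx, if_pos hx]
      ring
    have hsplit : ∀ g, n1 (mapDomain (fun x => g * x) p - p) =
        n1 (mapDomain (fun x => g * x) q - q) +
          c * (symmDiff (S.image fun x => g * x) S).card := by
      intro g
      set s := S.image (fun x => g * x) ∪ S with hs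
      have happ : ∀ (r : G →₀ ℝ) x, mapDomain (fun x => g * x) r x = r (g⁻¹ * x) := by
        intro r x
        conv_lhs => rw [show x = g * (g⁻¹ * x) by group]
        exact Finsupp.mapDomain_apply (mul_right_injective g) _ _
      have hmem : ∀ x, x ∈ S.image (fun x => g * x) ↔ g⁻¹ * x ∈ S := by
        intro x
        simp only [Finset.mem_image]
        constructor
        · rintro ⟨y, hy, rfl⟩; simpa using hy
        · exact fun hx => ⟨_, hx, by group⟩
      have hsupp : ∀ r : G →₀ ℝ, r.support ⊆ S →
          (mapDomain (fun x => g * x) r - r).support ⊆ s := fun r hr x hx => by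
        by_contra hxs
        rw [hs, mem_union, hmem, not_or] at hxs
        rw [Finsupp.mem_support_iff, Finsupp.sub_apply, happ,
          Finsupp.notMem_support_iff.1 fun h => hxs.1 (hr h),
          Finsupp.notMem_support_iff.1 fun h => hxs.2 (hr h)] at hx
        simp at hx
      rw [n1_eq_sum (hsupp p le_rfl), n1_eq_sum (hsupp q (hsub.trans (erase_subset _ _))),
        show symmDiff (S.image fun x => g * x) S = s.filter (fun x => ¬ (g⁻¹ * x ∈ S ↔ x ∈ S)) by
          ext x
          simp only [hs, mem_symmDiff, mem_filter, mem_union, hmem]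
          tauto,
        Finset.card_filter, Nat.cast_sum, Finset.mul_sum, ← Finset.sum_add_distrib]
      refine Finset.sum_congr rfl fun x _ => ?_
      simp only [Finsupp.sub_apply, happ, hqx]
      by_cases h1 : g⁻¹ * x ∈ S <;> by_cases h2 : x ∈ S
      · simp [h1, h2]
      · have hmy := hmin _ h1
        simp [h1, h2, Finsupp.notMem_support_iff.1 h2, abs_of_nonneg (hp (g⁻¹ * x)),
          abs_of_nonneg (sub_nonneg.2 hmy)]
      · have hmy := hmin _ h2
        simp [h1, h2, Finsupp.notMem_support_iff.1 h1, abs_of_nonneg (hp x)]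
        rw [abs_of_nonpos (by linarith)]
        ring
      · simp [h1, h2, Finsupp.notMem_support_iff.1 h1, Finsupp.notMem_support_iff.1 h2]
    refine ih _ hcard q rfl hq0 ?_
    simp only [hsplit, Finset.sum_add_distrib, ← Finset.mul_sum] at hlt
    rw [hn1, mul_add] at hlt
    have := mul_le_mul_of_nonneg_left (not_lt.1 hgood) hc0.le
    nlinarith

theorem Reiter.folner (h : Reiter G) : Folner G := by
  classical
  intro K ε hε
  obtain ⟨p, hp, hK⟩ := h K (ε / (2 * (K.card + 1))) (by positivity)
  obtain ⟨D, hD, hlt⟩ := folner_step (K := K) (ε := ε) p hp.nonneg (by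
    rw [hp.n1_eq, mul_one]
    refine lt_of_le_of_lt (Finset.sum_le_sum hK) ?_
    rw [Finset.sum_const, nsmul_eq_mul, mul_div_assoc', div_lt_iff₀ (by positivity)]
    nlinarith [Nat.cast_nonneg (α := ℝ) K.card])
  exact ⟨D, hD, fun g hg => lt_of_le_of_lt (Finset.single_le_sum
    (f := fun g => ((symmDiff (D.image fun x => g * x) D).card : ℝ))
    (fun _ _ => Nat.cast_nonneg _) hg) hlt⟩

/-- The uniform vector on a nonempty finite set. -/
def unif (D : Finset α) : α →₀ ℝ := Finsupp.indicator D fun _ _ => ((D.card : ℝ))⁻¹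

theorem isProb_unif {D : Finset α} (hD : D.Nonempty) : IsProb (unif D) := by
  classical
  refine ⟨fun x => ?_, ?_⟩
  · rw [unif, Finsupp.indicator_apply]; split <;> positivity
  · rw [Finsupp.sum_of_support_subset (unif D) (Finsupp.support_indicator_subset _ _) (fun _ a => a)
        fun _ _ => rfl,
      Finset.sum_congr rfl fun x (hx : x ∈ D) => show unif D x = ((D.card : ℝ))⁻¹ by
        rw [unif, Finsupp.indicator_apply, dif_pos hx],
      Finset.sum_const, nsmul_eq_mul, mul_inv_cancel₀ (Nat.cast_ne_zero.2 hD.card_pos.ne')]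

theorem Folner.reiter (h : Folner G) : Reiter G := by
  classical
  intro K ε hε
  obtain ⟨D, hD, hK⟩ := h K ε hε
  refine ⟨unif D, isProb_unif hD, fun g hg => ?_⟩
  have happ : ∀ x, mapDomain (fun x => g * x) (unif D) x = unif D (g⁻¹ * x) := by
    intro x
    conv_lhs => rw [show x = g * (g⁻¹ * x) by group]
    exact Finsupp.mapDomain_apply (mul_right_injective g) _ _
  set S := symmDiff (D.image fun x => g * x) D with hS
  have hsupp : (mapDomain (fun x => g * x) (unif D) - unif D).support ⊆ S := by
    intro x hx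
    by_contra hxs
    rw [Finsupp.mem_support_iff, Finsupp.sub_apply, happ, unif, Finsupp.indicator_apply,
      Finsupp.indicator_apply] at hx
    have himg : x ∈ D.image (fun x => g * x) ↔ g⁻¹ * x ∈ D := by
      simp only [Finset.mem_image]
      exact ⟨fun ⟨y, hy, he⟩ => he ▸ by simpa using hy, fun hx => ⟨_, hx, by group⟩⟩
    rw [hS, mem_symmDiff, himg] at hxs
    by_cases h1 : g⁻¹ * x ∈ D <;> by_cases h2 : x ∈ D <;> simp [h1, h2] at hx hxs
  rw [n1_eq_sum hsupp]
  refine le_trans (Finset.sum_le_card_nsmul _ _ ((D.card : ℝ))⁻¹ fun x _ => ?_) ?_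
  · rw [Finsupp.sub_apply, happ, unif, Finsupp.indicator_apply, Finsupp.indicator_apply]
    split <;> split <;> simp
  · rw [nsmul_eq_mul, ← div_eq_mul_inv, div_le_iff₀ (Nat.cast_pos.2 hD.card_pos)]
    exact (hK g hg).le

theorem reiter_iff_folner : Reiter G ↔ Folner G := ⟨Reiter.folner, Folner.reiter⟩

variable {X : Type v} [MulAction G X]

/-- An action with almost invariant probability vectors and amenable stabilisers makes the group
amenable. -/
theorem reiter_of_action
    (hX : ∀ K : Finset G, ∀ ε : ℝ, 0 < ε → ∃ ν : X →₀ ℝ, IsProb ν ∧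
      ∀ g ∈ K, n1 (mapDomain (fun x => g • x) ν - ν) ≤ ε)
    (hst : ∀ x : X, Reiter (MulAction.stabilizer G x)) : Reiter G := by
  classical
  intro K ε hε
  obtain ⟨ν, hν, hνK⟩ := hX K (ε / 2) (half_pos hε)
  have hex : ∀ x : X, ∃ σ : G,
      σ • (Quotient.mk (MulAction.orbitRel G X) x).out = x := fun x => by
    have h : (MulAction.orbitRel G X).r x (Quotient.mk (MulAction.orbitRel G X) x).out :=
      Setoid.symm' _ (Quotient.mk_out (s := MulAction.orbitRel G X) x)
    exact h
  choose σ hσ using hex
  set rt : X → X := fun x => (Quotient.mk (MulAction.orbitRel G X) x).out with hrt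
  have hrt_smul : ∀ (g : G) x, rt (g • x) = rt x := fun g x => by
    simp only [hrt]
    exact congrArg Quotient.out (Quotient.sound ⟨g, rfl⟩)
  have hmem : ∀ (g : G) x, (σ (g • x))⁻¹ * g * σ x ∈ MulAction.stabilizer G (rt x) := by
    intro g x
    rw [MulAction.mem_stabilizer_iff, mul_smul, mul_smul, hσ x, inv_smul_eq_iff]
    conv_lhs => rw [← hσ (g • x)]
    rw [show (Quotient.mk (MulAction.orbitRel G X) (g • x)).out = rt x from hrt_smul g x]
  have hp : ∀ r : X, ∃ p : G →₀ ℝ, IsProb p ∧ ∀ g ∈ K, ∀ x ∈ ν.support, rt x = r →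
      n1 (mapDomain (fun y => (σ (g • x))⁻¹ * g * σ x * y) p - p) ≤ ε / 2 := by
    intro r
    set F : Finset (MulAction.stabilizer G r) :=
      ((K ×ˢ ν.support).image fun q => (σ (q.1 • q.2))⁻¹ * q.1 * σ q.2).subtype
        (· ∈ MulAction.stabilizer G r) with hF
    obtain ⟨p, hp, hpF⟩ := hst r F (ε / 2) (half_pos hε)
    refine ⟨mapDomain (↑) p, hp.map _, fun g hg x hx hr => ?_⟩
    have hm : (σ (g • x))⁻¹ * g * σ x ∈ MulAction.stabilizer G r := hr ▸ hmem g x
    set s : MulAction.stabilizer G r := ⟨_, hm⟩ with hs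
    have hsF : s ∈ F := by
      rw [hF, Finset.mem_subtype]
      exact Finset.mem_image.2 ⟨(g, x), mem_product.2 ⟨hg, hx⟩, rfl⟩
    have he : mapDomain (fun y => (σ (g • x))⁻¹ * g * σ x * y)
        (mapDomain (Subtype.val : MulAction.stabilizer G r → G) p) =
        mapDomain (Subtype.val : MulAction.stabilizer G r → G) (mapDomain (fun y => s * y) p) := by
      rw [← mapDomain_comp, ← mapDomain_comp]
      rfl
    rw [he, ← mapDomain_sub]
    exact (n1_mapDomain_le _ _).trans (hpF s hsF)
  choose p hpP hpK using hp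
  set Φ : X → G →₀ ℝ := fun x => mapDomain (fun y => σ x * y) (p (rt x)) with hΦ
  have hΦP : ∀ x, IsProb (Φ x) := fun x => (hpP _).map _
  refine ⟨ν.sum fun x a => a • Φ x, ⟨fun y => ?_, ?_⟩, fun g hg => ?_⟩
  · rw [Finsupp.sum_apply]
    exact Finset.sum_nonneg fun x _ => mul_nonneg (hν.nonneg x) ((hΦP x).nonneg y)
  · rw [Finsupp.sum_sum_index (fun _ => rfl) fun _ _ _ => rfl]
    refine Eq.trans (Finset.sum_congr rfl fun x _ => ?_) hν.mass
    simp only
    rw [Finsupp.sum_smul_index fun _ => rfl, ← Finsupp.mul_sum, (hΦP x).mass, mul_one]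
  · have h1 : n1 (mapDomain (fun y => g * y) (ν.sum fun x a => a • Φ x) -
        ν.sum fun x a => a • Φ (g • x)) ≤ ε / 2 := by
      rw [Finsupp.sum, mapDomain_finsetSum, Finsupp.sum, ← Finset.sum_sub_distrib]
      refine (n1_sum_le _ _).trans (le_trans (Finset.sum_le_sum
        (g := fun x => ν x * (ε / 2)) fun x hx => ?_) ?_)
      · rw [mapDomain_smul, ← smul_sub, n1_smul, abs_of_nonneg (hν.nonneg x)]
        refine mul_le_mul_of_nonneg_left ?_ (hν.nonneg x)
        have he1 : mapDomain (fun y => g * y) (Φ x) = mapDomain (fun y => σ (g • x) * y)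
            (mapDomain (fun y => (σ (g • x))⁻¹ * g * σ x * y) (p (rt x))) := by
          simp only [hΦ, ← mapDomain_comp]
          congr 1
          funext y
          simp only [Function.comp_apply]
          group
        have he2 : Φ (g • x) = mapDomain (fun y => σ (g • x) * y) (p (rt x)) := by
          simp only [hΦ, hrt_smul]
        rw [he1, he2, ← mapDomain_sub]
        exact (n1_mapDomain_le _ _).trans (hpK _ g hg x hx rfl)
      · rw [← Finset.sum_mul]
        exact le_of_eq (by rw [show ∑ x ∈ ν.support, ν x = 1 from hν.mass, one_mul])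
    have h2 : n1 ((ν.sum fun x a => a • Φ (g • x)) - ν.sum fun x a => a • Φ x) ≤ ε / 2 := by
      have he : (ν.sum fun x a => a • Φ (g • x)) =
          (mapDomain (fun x => g • x) ν).sum fun x a => a • Φ x :=
        (Finsupp.sum_mapDomain_index (f := fun x => g • x) (s := ν) (h := fun x a => a • Φ x)
          (fun x => zero_smul ℝ (Φ x)) (fun x a b => add_smul a b (Φ x))).symm
      rw [he, ← Finsupp.sum_sub_index fun x a b => sub_smul a b (Φ x), Finsupp.sum]
      refine (n1_sum_le _ _).trans (le_trans (le_of_eq (Finset.sum_congr rfl fun x _ => ?_))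
        (hνK g hg))
      rw [n1_smul, (hΦP x).n1_eq, mul_one]
    have h3 := (n1_add_le (mapDomain (fun y => g * y) (ν.sum fun x a => a • Φ x) -
      ν.sum fun x a => a • Φ (g • x))
      ((ν.sum fun x a => a • Φ (g • x)) - ν.sum fun x a => a • Φ x)).trans (add_le_add h1 h2)
    rw [sub_add_sub_cancel, add_halves] at h3
    exact h3

/-- A finite group is amenable. -/
theorem reiter_of_finite [Finite G] : Reiter G := by
  have := Fintype.ofFinite G
  classical
  intro K ε hε
  refine ⟨unif Finset.univ, isProb_unif ⟨1, mem_univ _⟩, fun g _ => ?_⟩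
  have h : mapDomain (fun x => g * x) (unif (Finset.univ : Finset G)) = unif Finset.univ := by
    ext x
    conv_lhs => rw [show x = g * (g⁻¹ * x) by group]
    rw [Finsupp.mapDomain_apply (mul_right_injective g)]
    simp [unif, Finsupp.indicator_apply]
  rw [h, sub_self, n1_zero]
  exact hε.le

variable {H : Type v} [Group H]

/-- Amenability passes to the image of a surjective homomorphism. -/
theorem Reiter.of_surjective (h : Reiter G) (f : G →* H) (hf : Function.Surjective f) :
    Reiter H := by
  classical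
  intro K ε hε
  obtain ⟨p, hp, hK⟩ := h (K.image (Function.surjInv hf)) ε hε
  refine ⟨mapDomain f p, hp.map f, fun k hk => le_trans (le_of_eq ?_)
    ((n1_mapDomain_le f _).trans (hK _ (mem_image_of_mem _ hk)))⟩
  rw [mapDomain_sub, ← mapDomain_comp, ← mapDomain_comp]
  congr 3
  funext x
  simp [Function.surjInv_eq hf]

/-- Amenability passes to subgroups, in the form of injective homomorphisms. -/
theorem Reiter.of_injective (h : Reiter G) (f : H →* G) (hf : Function.Injective f) :
    Reiter H := by
  classical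
  intro K ε hε
  have hex : ∀ x : G, ∃ y : H, f y * (Quotient.mk (QuotientGroup.rightRel f.range) x).out = x := by
    intro x
    have := Quotient.mk_out (s := QuotientGroup.rightRel f.range) x
    obtain ⟨y, hy⟩ := (QuotientGroup.rightRel_apply.1 this)
    exact ⟨y, by rw [hy]; group⟩
  choose c hc using hex
  have heq : ∀ (k : H) x, c (f k * x) = k * c x := by
    intro k x
    apply hf
    have h2 : (Quotient.mk (QuotientGroup.rightRel f.range) (f k * x)).out =
        (Quotient.mk (QuotientGroup.rightRel f.range) x).out :=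
      congrArg Quotient.out (Quotient.sound (QuotientGroup.rightRel_apply.2
        ⟨k⁻¹, by rw [map_inv]; group⟩))
    have h1 := hc (f k * x)
    rw [h2] at h1
    apply mul_right_cancel (b := (Quotient.mk (QuotientGroup.rightRel f.range) x).out)
    rw [h1, map_mul, mul_assoc, hc]
  obtain ⟨p, hp, hK⟩ := h (K.image f) ε hε
  refine ⟨mapDomain c p, hp.map c, fun k hk => le_trans (le_of_eq ?_)
    ((n1_mapDomain_le c _).trans (hK _ (mem_image_of_mem _ hk)))⟩
  rw [mapDomain_sub, ← mapDomain_comp, ← mapDomain_comp]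
  congr 3
  funext x
  simp [heq]

theorem Reiter.subgroup (h : Reiter G) (A : Subgroup G) : Reiter A :=
  h.of_injective A.subtype Subtype.val_injective

/-- An extension of amenable groups is amenable. -/
theorem reiter_of_extension (f : G →* H) (hker : Reiter f.ker) (hH : Reiter H) : Reiter G := by
  classical
  let : MulAction G H := MulAction.compHom H f
  refine reiter_of_action (X := H) (fun K ε hε => ?_) fun x => ?_
  · obtain ⟨ν, hν, hK⟩ := hH (K.image f) ε hε
    exact ⟨ν, hν, fun g hg => hK _ (mem_image_of_mem _ hg)⟩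
  · have hx : MulAction.stabilizer G x = f.ker := by
      ext g
      rw [MulAction.mem_stabilizer_iff, MonoidHom.mem_ker]
      exact mul_eq_right
    rw [hx]
    exact hker

/-- A group covered, on finite sets, by amenable subgroups is amenable. -/
theorem reiter_of_local (h : ∀ K : Finset G, ∃ A : Subgroup G, ↑K ⊆ (A : Set G) ∧ Reiter A) :
    Reiter G := by
  classical
  intro K ε hε
  obtain ⟨A, hKA, hA⟩ := h K
  obtain ⟨p, hp, hpK⟩ := hA (K.subtype (· ∈ A)) ε hε
  refine ⟨mapDomain (↑) p, hp.map _, fun g hg => le_trans (le_of_eq ?_)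
    ((n1_mapDomain_le (Subtype.val : A → G) _).trans
      (hpK ⟨g, hKA hg⟩ (Finset.mem_subtype.2 hg)))⟩
  rw [mapDomain_sub, ← mapDomain_comp, ← mapDomain_comp]
  rfl

/-- A locally finite group is amenable. -/
theorem reiter_of_locally_finite
    (h : ∀ K : Finset G, ∃ A : Subgroup G, ↑K ⊆ (A : Set G) ∧ Finite A) : Reiter G :=
  reiter_of_local fun K => by
    obtain ⟨A, hKA, hA⟩ := h K
    exact ⟨A, hKA, reiter_of_finite⟩

end Vale.Agent.P196.Amen
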