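import Vale.Agent.P196.Defs
import Vale.Agent.P196.Amen.Generic

/-!
P196, module A: Reiter's condition gives the Følner condition of the interfaces.
-/

namespace Vale.Agent.P196.Amen

/-- Almost invariant vectors give Følner sets in the sense of the interfaces. -/
theorem Reiter.toFolner {G : Type} [Group G] (h : Reiter G) : Vale.Agent.P196.Folner G := by
  classical
  intro K hK ε hε
  obtain ⟨D, hD, hDK⟩ := h.folner hK.toFinset ε hε
  refine ⟨D, D.finite_toSet, hD, fun g hg => ?_⟩
  rw [← Finset.coe_image, ← Finset.coe_symmDiff, Set.ncard_coe_finset, Set.ncard_coe_finset]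
  exact hDK g (hK.mem_toFinset.2 hg)

end Vale.Agent.P196.Amen
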