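import Vale.Agent.P196.Amen.StageTwo
import Vale.Agent.P196.Amen.Bridge

/-!
P196, module A: the assembly. Given stage one, the group is amenable.
-/

noncomputable section

namespace Vale.Agent.P196.Amen

variable {S : SFT}

/-- Stage two and the locally finite last stage: moves along the second coordinate only. -/
theorem reiter_vertical {C : Type} [Finite C] (O : S.Odometer) (η : ∀ n, ZMod (O.Q n))
    (hne : (O.fibre₂ η).Nonempty) (hη : S.StripCount O η) {dom : C → Set S.X}
    (hdom : ∀ c, S.IsLocal fun x => x ∈ dom c) (Γ : Subgroup (Equiv.Perm (Pt dom)))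
    (hΓ : ∀ g ∈ Γ, Moves (AddMonoidHom.fst ℤ ℤ).ker g) : Reiter Γ := by
  refine reiter_of_fronts (axis₂ O) (ξ := η) hne hdom
    (show ((0, 1) : V) ∈ (AddMonoidHom.fst ℤ ℤ).ker from rfl) Γ hΓ (fun K hK ε hε => ?_)
    fun C' _ dom' _ Γ' hΓ' => reiter_static (fun v hv => ?_) Γ' hΓ'
  · exact fronts_two O η hη hdom (fun v hv => hv) K (fun g hg => hΓ _ (Γ.inv_mem (hK g hg))) ε hε
  · exact Prod.ext hv.1 hv.2

/-- Module A from stage one. -/
theorem amenable_of (h1 : StageOne) : AmenableStatement := by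
  intro S O ξ η hmf hne hb hne2 hs k
  set Γ : Subgroup (Equiv.Perm (Pt (fullDom S k))) := (S.fullGroup k).map (fullHom S k) with hΓdef
  have hΓ : ∀ g ∈ Γ, Moves ⊤ g := by
    rintro _ ⟨g, hg, rfl⟩
    exact moves_fullGroup hg
  have hR : Reiter Γ := by
    refine reiter_of_fronts (axis₁ O) (ξ := ξ) hne (fun c => isLocal_const True)
      (AddSubgroup.mem_top _) Γ hΓ
      (fun K hK ε hε => h1 S O ξ hmf hne hb k K
        (fun g hg => ⟨hΓ _ (hK g hg), hΓ _ (Γ.inv_mem (hK g hg))⟩) ε hε)
      fun C' _ dom' hdom' Γ' hΓ' => ?_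
    exact reiter_vertical O η hne2 hs hdom' Γ' fun g hg => (hΓ' g hg).mono inf_le_right
  let f : S.fullGroup k →* Γ :=
    ((fullHom S k).comp (S.fullGroup k).subtype).codRestrict Γ fun g =>
      Subgroup.mem_map_of_mem _ g.2
  have hf : Function.Injective f := fun x y h =>
    Subtype.ext (fullHom_injective k (congrArg Subtype.val h))
  exact (hR.of_injective f hf).toFolner

end Vale.Agent.P196.Amen
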