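import Vale.Agent.P196.Defs

/-!
P196, module A: local functions on the subshift, the systems `Pt dom` of coloured points, and the
permutations of such systems moving every point by a local translation and a local colour change.
-/

noncomputable section

namespace Vale.Agent.P196.Amen

open Finset

variable {S : SFT}

theorem box_mono {r r' : ℕ} (h : r ≤ r') : SFT.box r ⊆ SFT.box r' := by
  intro u hu
  simp only [SFT.box, Finset.mem_Icc, Prod.le_def] at hu ⊢
  omega

theorem localWith_mono {β : Type} {r r' : ℕ} {f : S.X → β} (h : r ≤ r')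
    (hf : S.LocalWith r f) : S.LocalWith r' f :=
  fun x y hxy => hf x y fun u hu => hxy u (box_mono h hu)

theorem isLocal_const {β : Type} (b : β) : S.IsLocal fun _ : S.X => b := ⟨0, fun _ _ _ => rfl⟩

theorem isLocal_comp {β γ : Type} {f : S.X → β} (hf : S.IsLocal f) (g : β → γ) :
    S.IsLocal fun x => g (f x) := by
  obtain ⟨r, hr⟩ := hf
  exact ⟨r, fun x y h => congrArg g (hr x y h)⟩

theorem isLocal_pi {ι : Type} [Finite ι] {β : ι → Type} {f : ∀ i, S.X → β i}
    (hf : ∀ i, S.IsLocal (f i)) : S.IsLocal fun x i => f i x := by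
  choose r hr using hf
  have := Fintype.ofFinite ι
  exact ⟨univ.sup r, fun x y h => funext fun i =>
    localWith_mono (le_sup (mem_univ i)) (hr i) x y h⟩

theorem isLocal_prod {β γ : Type} {f : S.X → β} {g : S.X → γ} (hf : S.IsLocal f)
    (hg : S.IsLocal g) : S.IsLocal fun x => (f x, g x) := by
  obtain ⟨r, hr⟩ := hf
  obtain ⟨r', hr'⟩ := hg
  exact ⟨max r r', fun x y h => Prod.ext (localWith_mono (le_max_left _ _) hr x y h)
    (localWith_mono (le_max_right _ _) hr' x y h)⟩

theorem isLocal_comp₂ {β γ δ : Type} {f : S.X → β} {g : S.X → γ} (hf : S.IsLocal f)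
    (hg : S.IsLocal g) (F : β → γ → δ) : S.IsLocal fun x => F (f x) (g x) :=
  isLocal_comp (isLocal_prod hf hg) fun q => F q.1 q.2

/-- A local function takes finitely many values. -/
theorem finite_range {β : Type} {f : S.X → β} (hf : S.IsLocal f) : (Set.range f).Finite := by
  classical
  obtain ⟨r, hr⟩ := hf
  rcases isEmpty_or_nonempty S.X with h | ⟨⟨x₀⟩⟩
  · simp [Set.range_eq_empty]
  set G : (SFT.box r → S.A) → β := fun p =>
    if h : ∃ x : S.X, ∀ u : SFT.box r, x.1 u = p u then f h.choose else f x₀ with hG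
  refine (Set.finite_range G).subset ?_
  rintro _ ⟨x, rfl⟩
  refine ⟨fun u => x.1 u, ?_⟩
  have h : ∃ y : S.X, ∀ u : SFT.box r, y.1 u = x.1 u := ⟨x, fun _ => rfl⟩
  simp only [hG, dif_pos h]
  exact hr _ _ fun u hu => h.choose_spec ⟨u, hu⟩

theorem act_apply (v u : V) (x : S.X) : (S.act v x).1 u = x.1 (u + v) := rfl

theorem act_zero (x : S.X) : S.act 0 x = x := by
  apply Subtype.ext
  funext u
  simp [act_apply]

theorem act_act (v v' : V) (x : S.X) : S.act v (S.act v' x) = S.act (v + v') x := by
  apply Subtype.ext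
  funext u
  simp only [act_apply, add_assoc]

theorem isLocal_act {β : Type} {f : S.X → β} (hf : S.IsLocal f) (v : V) :
    S.IsLocal fun x => f (S.act v x) := by
  obtain ⟨r, hr⟩ := hf
  refine ⟨r + max v.1.natAbs v.2.natAbs, fun x y h => hr _ _ fun u hu => ?_⟩
  rw [act_apply, act_apply]
  refine h _ ?_
  simp only [SFT.box, Finset.mem_Icc, Prod.le_def, Prod.fst_add, Prod.snd_add] at hu ⊢
  omega

theorem isLocal_act_var {β : Type} {f : S.X → β} {d : S.X → V} (hf : S.IsLocal f)
    (hd : S.IsLocal d) : S.IsLocal fun x => f (S.act (d x) x) := by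
  obtain ⟨r, hr⟩ := hd
  have hfin := finite_range ⟨r, hr⟩
  have h := fun v : hfin.toFinset => isLocal_act hf v.1
  obtain ⟨r', hr'⟩ := isLocal_pi h
  refine ⟨max r r', fun x y hxy => ?_⟩
  have hd' : d x = d y := localWith_mono (le_max_left _ _) hr x y hxy
  have := congrFun (localWith_mono (le_max_right _ _) hr' x y hxy)
    ⟨d x, hfin.mem_toFinset.2 ⟨x, rfl⟩⟩
  simp only at this
  show f (S.act (d x) x) = f (S.act (d y) y)
  rw [← hd']
  exact this

theorem isLocal_select {ι β : Type} [Finite ι] {i : S.X → ι} {f : ι → S.X → β}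
    (hi : S.IsLocal i) (hf : ∀ j, S.IsLocal (f j)) : S.IsLocal fun x => f (i x) x :=
  isLocal_comp₂ hi (isLocal_pi hf) fun j F => F j

theorem isClosed_carrier : IsClosed S.carrier := by
  have h : S.carrier = ⋂ v : V, (fun x => S.window x v) ⁻¹' {p | S.allowed p} := by
    ext x; simp [SFT.carrier]
  rw [h]
  exact isClosed_iInter fun v => (isClosed_discrete _).preimage
    (continuous_pi fun p => continuous_apply _)

instance instCompactSpaceX : CompactSpace S.X :=
  isCompact_iff_compactSpace.1 (isClosed_carrier (S := S)).isCompact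

theorem isClopen_of_isLocal {P : S.X → Prop} (hP : S.IsLocal P) : IsClopen {x | P x} := by
  obtain ⟨r, hr⟩ := hP
  have hc : Continuous fun x : S.X => fun u : SFT.box r => x.1 u :=
    continuous_pi fun u => (continuous_apply (u : V)).comp continuous_subtype_val
  have h : {x | P x} = (fun x : S.X => fun u : SFT.box r => x.1 u) ⁻¹'
      ((fun x : S.X => fun u : SFT.box r => x.1 u) '' {x | P x}) := by
    refine Set.Subset.antisymm (Set.subset_preimage_image _ _) ?_
    rintro x ⟨y, hy, he⟩
    exact (hr y x fun u hu => congrFun he ⟨u, hu⟩).mp hy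
  rw [h]
  exact (isClopen_discrete _).preimage hc

/-! ### Systems of coloured points -/

variable {C : Type}

/-- The points of a system. -/
abbrev Pt (dom : C → Set S.X) : Type := {p : C × S.X // p.2 ∈ dom p.1}

/-- A permutation changing colours locally and translating points locally inside `W`. -/
def Moves {dom : C → Set S.X} (W : AddSubgroup V) (g : Equiv.Perm (Pt dom)) : Prop :=
  ∃ col : C → S.X → C, ∃ d : C → S.X → V, (∀ c, S.IsLocal (col c)) ∧ (∀ c, S.IsLocal (d c)) ∧
    (∀ c x, d c x ∈ W) ∧ ∀ p : Pt dom, (g p).1 = (col p.1.1 p.1.2, S.act (d p.1.1 p.1.2) p.1.2)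

theorem moves_one {dom : C → Set S.X} (W : AddSubgroup V) :
    Moves W (1 : Equiv.Perm (Pt dom)) :=
  ⟨fun c _ => c, fun _ _ => 0, fun c => isLocal_const c, fun _ => isLocal_const 0,
    fun _ _ => W.zero_mem, fun p => by simp [act_zero]⟩

theorem Moves.mul [Finite C] {dom : C → Set S.X} {W : AddSubgroup V}
    {g h : Equiv.Perm (Pt dom)} (hg : Moves W g) (hh : Moves W h) : Moves W (g * h) := by
  obtain ⟨col, d, hcol, hd, hW, hg⟩ := hg
  obtain ⟨col', d', hcol', hd', hW', hh⟩ := hh
  refine ⟨fun c x => col (col' c x) (S.act (d' c x) x),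
    fun c x => d (col' c x) (S.act (d' c x) x) + d' c x, fun c => ?_, fun c => ?_,
    fun c x => W.add_mem (hW _ _) (hW' _ _), fun p => ?_⟩
  · exact isLocal_select (hcol' c) fun j => isLocal_act_var (hcol j) (hd' c)
  · exact isLocal_comp₂ (isLocal_select (hcol' c) fun j => isLocal_act_var (hd j) (hd' c))
      (hd' c) (· + ·)
  · rw [Equiv.Perm.mul_apply, hg, hh, act_act]

theorem Moves.mono {dom : C → Set S.X} {W W' : AddSubgroup V} (h : W ≤ W')
    {g : Equiv.Perm (Pt dom)} (hg : Moves W g) : Moves W' g := by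
  obtain ⟨col, d, hcol, hd, hW, hg⟩ := hg
  exact ⟨col, d, hcol, hd, fun c x => h (hW c x), hg⟩

/-- The moves form a submonoid. -/
def movesMonoid [Finite C] (dom : C → Set S.X) (W : AddSubgroup V) :
    Submonoid (Equiv.Perm (Pt dom)) where
  carrier := {g | Moves W g}
  one_mem' := moves_one W
  mul_mem' := Moves.mul

/-- If a symmetric generating set consists of moves, so does the subgroup. -/
theorem moves_of_mem_closure [Finite C] {dom : C → Set S.X} {W : AddSubgroup V}
    {K : Set (Equiv.Perm (Pt dom))} (hK : ∀ g ∈ K, Moves W g) (hinv : ∀ g ∈ K, Moves W g⁻¹)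
    {g : Equiv.Perm (Pt dom)} (hg : g ∈ Subgroup.closure K) : Moves W g := by
  have h : (Subgroup.closure K).toSubmonoid ≤ movesMonoid dom W := by
    rw [Subgroup.closure_toSubmonoid, Submonoid.closure_le]
    rintro x (hx | hx)
    · exact hK x hx
    · have h := hinv x⁻¹ hx
      rw [inv_inv] at h
      exact h
  exact h hg

/-- The points of the full system. -/
def fullDom (S : SFT) (k : ℕ) : Fin k → Set S.X := fun _ => Set.univ

/-- The full system is the space the group acts on. -/
def fullEquiv (S : SFT) (k : ℕ) : Pt (fullDom S k) ≃ Fin k × S.X :=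
  Equiv.subtypeUnivEquiv fun p => Set.mem_univ p.2

/-- The group as permutations of the full system. -/
def fullHom (S : SFT) (k : ℕ) :
    Equiv.Perm (Fin k × S.X) →* Equiv.Perm (Pt (fullDom S k)) :=
  (fullEquiv S k).symm.permCongrHom.toMonoidHom

theorem fullHom_injective (k : ℕ) : Function.Injective (fullHom S k) :=
  (fullEquiv S k).symm.permCongrHom.injective

theorem fullHom_apply {k : ℕ} (g : Equiv.Perm (Fin k × S.X)) (p : Pt (fullDom S k)) :
    (fullHom S k g p).1 = g p.1 := rfl

theorem moves_gens {k : ℕ} {g : Equiv.Perm (Fin k × S.X)} (hg : g ∈ S.gens k) :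
    Moves ⊤ (fullHom S k g) ∧ Moves ⊤ (fullHom S k g⁻¹) := by
  rcases hg with ⟨c, hc, -, rfl⟩ | ⟨t, -, rfl⟩
  · constructor
    · refine ⟨fun i x => c x i, fun _ _ => 0, fun i => isLocal_comp hc fun q => q i,
        fun _ => isLocal_const 0, fun _ _ => trivial, fun p => ?_⟩
      rw [fullHom_apply, act_zero]
      rfl
    · refine ⟨fun i x => (c x).symm i, fun _ _ => 0, fun i => isLocal_comp hc fun q => q.symm i,
        fun _ => isLocal_const 0, fun _ _ => trivial, fun p => ?_⟩
      rw [fullHom_apply, act_zero]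
      rfl
  · constructor
    · exact ⟨fun i _ => i, fun i _ => t i, fun i => isLocal_const i, fun i => isLocal_const _,
        fun _ _ => trivial, fun p => rfl⟩
    · refine ⟨fun i _ => i, fun i _ => -t i, fun i => isLocal_const i, fun i => isLocal_const _,
        fun _ _ => trivial, fun p => ?_⟩
      rw [fullHom_apply]
      rfl

/-- Every element of the group moves points locally. -/
theorem moves_fullGroup {k : ℕ} {g : Equiv.Perm (Fin k × S.X)} (hg : g ∈ S.fullGroup k) :
    Moves ⊤ (fullHom S k g) := by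
  refine moves_of_mem_closure (K := fullHom S k '' S.gens k) ?_ ?_ ?_
  · rintro _ ⟨x, hx, rfl⟩; exact (moves_gens hx).1
  · rintro _ ⟨x, hx, rfl⟩; rw [← map_inv]; exact (moves_gens hx).2
  · rw [← MonoidHom.map_closure]
    exact Subgroup.mem_map_of_mem _ hg

end Vale.Agent.P196.Amen
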