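import Vale.Agent.P196.Amen.Generic

/-!
P196, module A: product probability vectors given by amplitudes, and the distance between two of
them in terms of the squared distances of the amplitudes.
-/

noncomputable section

namespace Vale.Agent.P196.Amen

open Finset Finsupp

variable {ι : Type*} [Fintype ι] [DecidableEq ι] {β : ι → Type*} [∀ i, Fintype (β i)]

/-- Amplitudes: in every coordinate a nonnegative vector of squared length one. -/
structure IsAmp (a : ∀ i, β i → ℝ) : Prop where
  nonneg : ∀ i y, 0 ≤ a i y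
  unit : ∀ i, ∑ y, a i y ^ 2 = 1

/-- The product of the amplitudes. -/
def ampProd (a : ∀ i, β i → ℝ) (x : ∀ i, β i) : ℝ := ∏ i, a i (x i)

/-- The product probability vector of the amplitudes. -/
def prodVec (a : ∀ i, β i → ℝ) : (∀ i, β i) →₀ ℝ :=
  Finsupp.equivFunOnFinite.symm fun x => ampProd a x ^ 2

omit [DecidableEq ι] in
theorem prodVec_apply (a : ∀ i, β i → ℝ) (x : ∀ i, β i) : prodVec a x = ampProd a x ^ 2 := by
  simp [prodVec]

theorem sum_ampProd_mul (a b : ∀ i, β i → ℝ) :
    ∑ x, ampProd a x * ampProd b x = ∏ i, ∑ y, a i y * b i y := by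
  rw [Fintype.prod_sum]
  exact Finset.sum_congr rfl fun x _ => Finset.prod_mul_distrib.symm

theorem sum_ampProd_sq {a : ∀ i, β i → ℝ} (ha : IsAmp a) : ∑ x, ampProd a x ^ 2 = 1 := by
  simp only [sq, sum_ampProd_mul]
  exact Finset.prod_eq_one fun i _ => by simpa only [sq] using ha.unit i

theorem isProb_prodVec {a : ∀ i, β i → ℝ} (ha : IsAmp a) : IsProb (prodVec a) :=
  ⟨fun x => by rw [prodVec_apply]; exact sq_nonneg _, by
    rw [Finsupp.sum_fintype _ _ fun _ => rfl]
    simp only [prodVec_apply, sum_ampProd_sq ha]⟩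

omit [DecidableEq ι] in
theorem one_sub_prod_le {κ : Type*} (s : Finset κ) (c : κ → ℝ) (h0 : ∀ i, 0 ≤ c i)
    (h1 : ∀ i, c i ≤ 1) : 1 - ∏ i ∈ s, c i ≤ ∑ i ∈ s, (1 - c i) := by
  classical
  induction s using Finset.induction_on with
  | empty => simp
  | @insert a s ha ih =>
    rw [Finset.prod_insert ha, Finset.sum_insert ha]
    have hp0 : 0 ≤ ∏ i ∈ s, c i := Finset.prod_nonneg fun i _ => h0 i
    have hp1 : ∏ i ∈ s, c i ≤ 1 := Finset.prod_le_one (fun i _ => h0 i) fun i _ => h1 i
    nlinarith [h0 a, h1 a, mul_nonneg (sub_nonneg.2 (h1 a)) (sub_nonneg.2 hp1)]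

/-- The Hellinger bound for two product vectors. -/
theorem n1_prodVec_sub_le {a b : ∀ i, β i → ℝ} (ha : IsAmp a) (hb : IsAmp b) :
    n1 (prodVec a - prodVec b) ≤ 2 * Real.sqrt (∑ i, ∑ y, (a i y - b i y) ^ 2) := by
  set A := ampProd a with hA
  set B := ampProd b with hB
  rw [n1_eq_sum (Finset.subset_univ _)]
  simp only [Finsupp.sub_apply, prodVec_apply, ← hA, ← hB]
  set c : ι → ℝ := fun i => ∑ y, a i y * b i y with hc
  have hd : ∀ i, ∑ y, (a i y - b i y) ^ 2 = 2 * (1 - c i) := by
    intro i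
    have hexp : ∀ y, (a i y - b i y) ^ 2 = a i y ^ 2 + b i y ^ 2 - 2 * (a i y * b i y) :=
      fun y => by ring
    simp only [hexp, Finset.sum_sub_distrib, Finset.sum_add_distrib, ha.unit, hb.unit,
      ← Finset.mul_sum, hc]
    ring
  have hc0 : ∀ i, 0 ≤ c i := fun i =>
    Finset.sum_nonneg fun y _ => mul_nonneg (ha.nonneg i y) (hb.nonneg i y)
  have hc1 : ∀ i, c i ≤ 1 := fun i => by
    have := hd i
    have h2 : 0 ≤ ∑ y, (a i y - b i y) ^ 2 := Finset.sum_nonneg fun _ _ => sq_nonneg _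
    linarith
  have hAB : ∑ x, A x * B x = ∏ i, c i := sum_ampProd_mul a b
  have hsub : ∑ x, (A x - B x) ^ 2 ≤ ∑ i, ∑ y, (a i y - b i y) ^ 2 := by
    have hexp : ∀ x, (A x - B x) ^ 2 = A x ^ 2 + B x ^ 2 - 2 * (A x * B x) := fun x => by ring
    have h := one_sub_prod_le Finset.univ c hc0 hc1
    have hl : ∑ x, (A x - B x) ^ 2 = 2 * (1 - ∏ i, c i) := by
      rw [Finset.sum_congr rfl fun x _ => hexp x, Finset.sum_sub_distrib, Finset.sum_add_distrib,
        ← Finset.mul_sum, hAB, sum_ampProd_sq ha, sum_ampProd_sq hb]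
      ring
    rw [hl, Finset.sum_congr rfl fun i _ => hd i, ← Finset.mul_sum]
    linarith
  have hadd : ∑ x, (|A x| + |B x|) ^ 2 ≤ 2 ^ 2 := by
    refine (Finset.sum_le_sum (g := fun x => 2 * A x ^ 2 + 2 * B x ^ 2) fun x _ => ?_).trans ?_
    · nlinarith [sq_nonneg (|A x| - |B x|), sq_abs (A x), sq_abs (B x)]
    · simp only [hA, hB, Finset.sum_add_distrib, ← Finset.mul_sum, sum_ampProd_sq ha,
        sum_ampProd_sq hb]
      norm_num
  calc ∑ x, |A x ^ 2 - B x ^ 2| ≤ ∑ x, |A x - B x| * (|A x| + |B x|) := by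
        refine Finset.sum_le_sum fun x _ => ?_
        rw [sq_sub_sq, abs_mul, mul_comm]
        exact mul_le_mul_of_nonneg_left (abs_add_le _ _) (abs_nonneg _)
    _ ≤ Real.sqrt (∑ x, |A x - B x| ^ 2) * Real.sqrt (∑ x, (|A x| + |B x|) ^ 2) :=
        Real.sum_mul_le_sqrt_mul_sqrt _ _ _
    _ ≤ Real.sqrt (∑ i, ∑ y, (a i y - b i y) ^ 2) * 2 := by
        refine mul_le_mul ?_ ?_ (Real.sqrt_nonneg _) (Real.sqrt_nonneg _)
        · exact Real.sqrt_le_sqrt (by simpa only [sq_abs] using hsub)
        · rw [← Real.sqrt_sq (zero_le_two (α := ℝ))]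
          exact Real.sqrt_le_sqrt hadd
    _ = _ := mul_comm _ _

/-- The amplitudes of a coin of angle `θ`. -/
def coinAmp (θ : ℝ) (b : Bool) : ℝ := if b then Real.cos θ else Real.sin θ

theorem coinAmp_nonneg {θ : ℝ} (h0 : 0 ≤ θ) (h1 : θ ≤ Real.pi / 2) (b : Bool) :
    0 ≤ coinAmp θ b := by
  cases b
  · exact Real.sin_nonneg_of_nonneg_of_le_pi h0 (by linarith [Real.pi_pos])
  · exact Real.cos_nonneg_of_mem_Icc ⟨by linarith [Real.pi_pos], h1⟩

theorem sum_coinAmp_sq (θ : ℝ) : ∑ b, coinAmp θ b ^ 2 = 1 := by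
  simp [coinAmp, Real.cos_sq_add_sin_sq]

theorem sum_coinAmp_sub_sq_le (θ φ : ℝ) :
    ∑ b, (coinAmp θ b - coinAmp φ b) ^ 2 ≤ (θ - φ) ^ 2 := by
  have h := Real.one_sub_sq_div_two_le_cos (x := θ - φ)
  rw [Real.cos_sub] at h
  simp only [coinAmp, Fintype.sum_bool, if_true, Bool.false_eq_true, if_false]
  nlinarith [Real.cos_sq_add_sin_sq θ, Real.cos_sq_add_sin_sq φ]

end Vale.Agent.P196.Amen

namespace Vale.Agent.P196.Amen

open Finset Finsupp

/-- The marginal of a product vector on injectively chosen coordinates. -/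
theorem mapDomain_prodVec {ι κ : Type*} [Fintype ι] [DecidableEq ι] [Fintype κ] [DecidableEq κ]
    {f : ι → κ} (hf : Function.Injective f) {β : Type*} [Fintype β] {a : κ → β → ℝ}
    (ha : IsAmp (β := fun _ => β) a) :
    mapDomain (fun x i => x (f i)) (prodVec (β := fun _ => β) a) =
      prodVec (β := fun _ => β) fun i => a (f i) := by
  classical
  ext y
  rw [prodVec_apply, mapDomain, Finsupp.sum_fintype _ _ fun _ => single_zero _,
    Finsupp.finsetSum_apply]
  set w : κ → β → ℝ := fun k b => if ∀ i, f i = k → b = y i then a k b ^ 2 else 0 with hw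
  have h1 : ∀ x : κ → β, (single (fun i => x (f i)) (prodVec (β := fun _ => β) a x)) y =
      ∏ k, w k (x k) := by
    intro x
    rw [single_apply, prodVec_apply, ampProd, ← Finset.prod_pow]
    split_ifs with h
    · exact Finset.prod_congr rfl fun k _ => by
        simp only [hw]
        rw [if_pos]
        exact fun i hi => by rw [← hi]; exact congrFun h i
    · obtain ⟨i, hi⟩ := Function.ne_iff.1 h
      refine (Finset.prod_eq_zero (mem_univ (f i)) ?_).symm
      simp only [hw]
      rw [if_neg]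
      exact fun h' => hi (h' i rfl)
  rw [Finset.sum_congr rfl fun x _ => h1 x, ← Fintype.prod_sum, ampProd, ← Finset.prod_pow,
    ← Finset.prod_subset (Finset.subset_univ (univ.image f)), Finset.prod_image hf.injOn]
  · refine Finset.prod_congr rfl fun i _ => ?_
    rw [Finset.sum_eq_single (y i)]
    · simp only [hw]
      rw [if_pos]
      exact fun i' hi' => by rw [hf hi']
    · intro b _ hb
      simp only [hw]
      rw [if_neg]
      exact fun h => hb (h i rfl)
    · exact fun h => absurd (mem_univ _) h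
  · intro k _ hk
    have : ∀ b, w k b = a k b ^ 2 := fun b => by
      simp only [hw]
      rw [if_pos]
      exact fun i hi => absurd (hi ▸ mem_image_of_mem f (mem_univ i)) hk
    rw [Finset.sum_congr rfl fun b _ => this b]
    exact ha.unit k

/-- A value of probability zero does not occur in the support. -/
theorem amp_ne_zero_of_mem_support {ι : Type*} [Fintype ι] [DecidableEq ι] {β : ι → Type*}
    [∀ i, Fintype (β i)] {a : ∀ i, β i → ℝ} {x : ∀ i, β i} (hx : x ∈ (prodVec a).support) (i : ι) :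
    a i (x i) ≠ 0 := by
  rw [Finsupp.mem_support_iff, prodVec_apply] at hx
  intro h
  refine hx ?_
  rw [ampProd, Finset.prod_eq_zero (mem_univ i) h, zero_pow two_ne_zero]

end Vale.Agent.P196.Amen
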