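import Vale.Agent.P196.Amen.Axis
import Vale.Agent.P196.Amen.Generic

/-!
P196, module A: the stabiliser of a front set preserves a bounded slab coordinate, and the
resulting reduction of amenability to the systems with one direction of translation less.
-/

noncomputable section

namespace Vale.Agent.P196.Amen

open Finset Finsupp

variable {S : SFT} {C : Type} {dom : C → Set S.X} {a : Axis S} {ξ : ∀ n, ZMod (a.Q n)}

/-- The displacements of a local map along the axis are bounded. -/
theorem exists_bound [Finite C] {d : C → S.X → V} (hd : ∀ c, S.IsLocal (d c)) (π : V →+ ℤ) :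
    ∃ D : ℕ, ∀ c x, |π (d c x)| ≤ D := by
  have hfin : (Set.range fun q : C × S.X => π (d q.1 q.2)).Finite := by
    have h : (⋃ c : C, π '' Set.range (d c)).Finite :=
      Set.finite_iUnion fun c => (finite_range (hd c)).image π
    refine h.subset ?_
    rintro _ ⟨q, rfl⟩
    exact Set.mem_iUnion.2 ⟨q.1, Set.mem_image_of_mem _ ⟨q.2, rfl⟩⟩
  refine ⟨hfin.toFinset.sup Int.natAbs, fun c x => ?_⟩
  rw [← Int.natCast_natAbs]
  exact_mod_cast le_sup (f := Int.natAbs) (hfin.mem_toFinset.2 ⟨(c, x), rfl⟩)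

/-- Moves map front sets to front sets. -/
theorem Axis.Good.image [Finite C] {W : AddSubgroup V} {U : Set (Pt dom)} (hU : a.Good ξ U)
    {g : Equiv.Perm (Pt dom)} (hg : Moves W g) (hg' : Moves W g⁻¹) : a.Good ξ (g '' U) := by
  obtain ⟨I₁, I₂, r, hI, hhi, hlo, hloc⟩ := hU.shape
  obtain ⟨col', d', hcol', hd', -, hg'⟩ := hg'
  obtain ⟨D, hD⟩ := exists_bound hd' a.π
  have hmem : ∀ p, p ∈ g '' U ↔ g⁻¹ p ∈ U := fun p =>
    ⟨fun ⟨q, hq, he⟩ => he ▸ by simpa using hq, fun h => ⟨_, h, Equiv.apply_symm_apply g p⟩⟩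
  have hrow : ∀ (p : Pt dom) i, a.AtRow ξ p.1.2 i →
      a.AtRow ξ (g⁻¹ p).1.2 (i + a.π (d' p.1.1 p.1.2)) := fun p i h => by
    rw [hg' p]; exact h.act _
  refine ⟨fun p hp => ?_, ?_⟩
  · obtain ⟨q, hq, rfl⟩ := hp
    obtain ⟨i, hi⟩ := hU.row q hq
    obtain ⟨col, d, -, -, -, hg⟩ := hg
    exact ⟨_, by rw [hg q]; exact hi.act (d q.1.1 q.1.2)⟩
  · classical
    set ev : C → ℤ → S.X → (C × ℤ) × (SFT.box r → S.A) := fun c i w =>
      ((col' c (S.act (i • a.e) w), a.π (d' c (S.act (i • a.e) w))), fun u =>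
        (S.act ((-(i + a.π (d' c (S.act (i • a.e) w)))) • a.e + d' c (S.act (i • a.e) w)
          + i • a.e) w).1 u.1) with hev
    have hval : ∀ u : SFT.box r, S.IsLocal fun x : S.X => x.1 u.1 := fun u =>
      ⟨max u.1.1.natAbs u.1.2.natAbs, fun x y h => h _ (by
        simp only [SFT.box, Finset.mem_Icc, Prod.le_def]; omega)⟩
    have hevl : ∀ c i, S.IsLocal (ev c i) := fun c i =>
      isLocal_prod (isLocal_prod (isLocal_act (hcol' c) _)
        (isLocal_comp (isLocal_act (hd' c) _) a.π))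
        (isLocal_pi fun u => isLocal_act_var (hval u)
          (isLocal_comp (isLocal_act (hd' c) (i • a.e)) fun v =>
            (-(i + a.π v)) • a.e + v + i • a.e))
    obtain ⟨R, hR⟩ := isLocal_pi fun q : C × (Finset.Icc (I₁ - D) (I₂ + D) : Finset ℤ) =>
      hevl q.1 q.2.1
    refine ⟨I₁ - D, I₂ + D, R, by omega, fun p i hp hi => (hmem p).2 (hhi _ _ (hrow p i hp) ?_),
      fun p i hp hi h => hlo _ _ (hrow p i hp) ?_ ((hmem p).1 h), fun p q i hp hq hc hagree => ?_⟩
    · have := abs_le.1 (hD p.1.1 p.1.2); omega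
    · have := abs_le.1 (hD p.1.1 p.1.2); omega
    rw [hmem, hmem]
    by_cases hin : i ∈ Finset.Icc (I₁ - D) (I₂ + D)
    · have hev2 := congrFun (hR _ _ hagree) (p.1.1, ⟨i, hin⟩)
      simp only [hev] at hev2
      have hw : ∀ x : S.X, S.act (i • a.e) (S.act ((-i) • a.e) x) = x := fun x => by
        rw [act_act, neg_smul, add_neg_cancel, act_zero]
      rw [hw, hw, Prod.ext_iff, Prod.ext_iff] at hev2
      simp only at hev2
      obtain ⟨⟨hcol2, hd2⟩, hpat⟩ := hev2
      refine hloc _ _ _ (hrow p i hp) ?_ ?_ ?_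
      · rw [hd2, hc]; exact hrow q i hq
      · rw [hg' p, hg' q, hcol2, hc]
      · intro u hu
        have := congrFun hpat ⟨u, hu⟩
        rw [hg' p, hg' q]
        simp only [act_act, ← hc] at this ⊢
        rw [show ∀ v w : V, v + w + i • a.e + (-i) • a.e = v + w by
          intro v w; rw [neg_smul, add_neg_cancel_right]] at this
        rw [show ∀ v w : V, v + w + i • a.e + (-i) • a.e = v + w by
          intro v w; rw [neg_smul, add_neg_cancel_right]] at this
        rw [← hd2] at this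
        exact this
    · rw [Finset.mem_Icc, not_and_or, not_le, not_le] at hin
      have h1 := abs_le.1 (hD p.1.1 p.1.2)
      have h2 := abs_le.1 (hD q.1.1 q.1.2)
      rcases hin with h | h
      · exact iff_of_false (hlo _ _ (hrow p i hp) (by omega)) (hlo _ _ (hrow q i hq) (by omega))
      · exact iff_of_true (hhi _ _ (hrow p i hp) (by omega)) (hhi _ _ (hrow q i hq) (by omega))

variable (a)

/-- The slab: a front set fixed by finitely many moves gives a faithful bounded coordinate along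
the axis, after which the moves only translate across it. -/
theorem slab [Finite C] (hne : (a.fibre ξ).Nonempty)
    (hdom : ∀ c, S.IsLocal fun x => x ∈ dom c) {W : AddSubgroup V} (he : a.e ∈ W)
    {U : Set (Pt dom)} (hU : a.Good ξ U) {K : Set (Equiv.Perm (Pt dom))} (hKfin : K.Finite)
    (hK : ∀ g ∈ K, Moves W g) (hfix : ∀ g ∈ K, ∀ p, g p ∈ U ↔ p ∈ U) :
    ∃ (C' : Type) (_ : Finite C') (dom' : C' → Set S.X)
      (Φ : Equiv.Perm (Pt dom) →* Equiv.Perm (Pt dom')),
      Function.Injective Φ ∧ (∀ c, S.IsLocal fun x => x ∈ dom' c) ∧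
        ∀ g ∈ K, Moves (W ⊓ a.π.ker) (Φ g) := by
  classical
  obtain ⟨I₁, I₂, r, hI, hhi, hlo, hloc⟩ := hU.shape
  have hKF : Finite K := hKfin.to_subtype
  choose col d hcol hd hW hg using fun g : K => hK g.1 g.2
  obtain ⟨D, hD⟩ := exists_bound (C := K × C) (d := fun q => d q.1 q.2) (fun q => hd q.1 q.2) a.π
  set Pat : C → ℤ → Set (SFT.box r → S.A) := fun c i => {f | ∃ p ∈ U, p.1.1 = c ∧
    a.AtRow ξ p.1.2 i ∧ ∀ u : SFT.box r, (S.act ((-i) • a.e) p.1.2).1 u = f u} with hPat
  set Ext : C → ℤ → S.X → Prop := fun c i w =>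
    I₂ ≤ i ∨ (I₁ ≤ i ∧ (fun u : SFT.box r => w.1 u) ∈ Pat c i) with hExt
  have hback : ∀ (x : S.X) (i : ℤ), S.act (i • a.e) (S.act ((-i) • a.e) x) = x := fun x i => by
    rw [act_act, neg_smul, add_neg_cancel, act_zero]
  have hforth : ∀ (x : S.X) (i : ℤ), S.act ((-i) • a.e) (S.act (i • a.e) x) = x := fun x i => by
    rw [act_act, neg_smul, neg_add_cancel, act_zero]
  have hExtmem : ∀ (p : Pt dom) i, a.AtRow ξ p.1.2 i →
      (p ∈ U ↔ Ext p.1.1 i (S.act ((-i) • a.e) p.1.2)) := by
    intro p i hp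
    constructor
    · intro h
      by_cases h2 : I₂ ≤ i
      · exact Or.inl h2
      · exact Or.inr ⟨not_lt.1 fun hc => hlo p i hp hc h, p, h, rfl, hp, fun u => rfl⟩
    · rintro (h | ⟨-, q, hq, hqc, hqr, hqu⟩)
      · exact hhi p i hp h
      · exact (hloc q p i hqr hp hqc fun u hu => hqu ⟨u, hu⟩).1 hq
  have hExtl : ∀ c i, S.IsLocal (Ext c i) := fun c i => by
    refine ⟨r, fun x y h => ?_⟩
    have e : (fun u : SFT.box r => x.1 u) = fun u : SFT.box r => y.1 u :=
      funext fun u => h u.1 u.2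
    simp only [hExt, e]
  -- the invariance of the front, as a local condition on the fibre
  set Cond : K → C → ℤ → S.X → Prop := fun g c i w => S.act (i • a.e) w ∈ dom c →
    (Ext c i w ↔ Ext (col g c (S.act (i • a.e) w)) (i + a.π (d g c (S.act (i • a.e) w)))
      (S.act (d g c (S.act (i • a.e) w) - a.π (d g c (S.act (i • a.e) w)) • a.e) w)) with hCond
  have hrow2 : ∀ (x : S.X) (i : ℤ) (v : V),
      S.act ((-(i + a.π v)) • a.e) (S.act v x) =
        S.act (v - a.π v • a.e) (S.act ((-i) • a.e) x) := fun x i v => by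
    rw [act_act, act_act]
    congr 2
    rw [neg_smul, add_smul, neg_smul]
    abel
  have hCondF : ∀ g c i, ∀ w ∈ a.fibre ξ, Cond g c i w := by
    intro g c i w hw hx
    set p : Pt dom := ⟨(c, S.act (i • a.e) w), hx⟩ with hp
    have hpr : a.AtRow ξ p.1.2 i := Axis.atRow_of_mem hw i
    have h1 := hExtmem p i hpr
    have h2 := hExtmem (g.1 p) (i + a.π (d g c (S.act (i • a.e) w))) (by
      rw [hg g p]; exact hpr.act _)
    rw [hg g p] at h2
    simp only [hp, hrow2, hforth] at h1 h2
    exact h1.symm.trans ((hfix g g.2 p).symm.trans h2)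
  have hCondl : ∀ g c i, S.IsLocal (Cond g c i) := by
    intro g c i
    have hc1 := isLocal_act (hcol g c) (i • a.e)
    have hd1 := isLocal_act (hd g c) (i • a.e)
    obtain ⟨Dn, hDn⟩ := exists_bound (C := K × C) (d := fun q => d q.1 q.2)
      (fun q => hd q.1 q.2) a.π
    have hclip : S.IsLocal fun w =>
        (⟨(a.π (d g c (S.act (i • a.e) w)) + Dn).toNat, by
          have := abs_le.1 (hDn (g, c) (S.act (i • a.e) w)); simp only at this; omega⟩ : Fin (2 * Dn + 1)) := by
      obtain ⟨r', hr'⟩ := hd1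
      exact ⟨r', fun x y h => Fin.ext (by
        have e := hr' x y h
        simp only at e ⊢
        rw [e])⟩
    have hright : S.IsLocal fun w => Ext (col g c (S.act (i • a.e) w))
        (i + a.π (d g c (S.act (i • a.e) w)))
        (S.act (d g c (S.act (i • a.e) w) - a.π (d g c (S.act (i • a.e) w)) • a.e) w) := by
      have h := isLocal_select (isLocal_prod hc1 hclip)
        (f := fun q : C × Fin (2 * Dn + 1) => fun w => Ext q.1 (i + ((q.2 : ℕ) : ℤ) - Dn)
          (S.act (d g c (S.act (i • a.e) w) - a.π (d g c (S.act (i • a.e) w)) • a.e) w))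
        fun q => isLocal_act_var (hExtl _ _) (isLocal_comp hd1 fun v => v - a.π v • a.e)
      obtain ⟨r', hr'⟩ := h
      refine ⟨r', fun x y hxy => ?_⟩
      have hx := abs_le.1 (hDn (g, c) (S.act (i • a.e) x))
      have hy := abs_le.1 (hDn (g, c) (S.act (i • a.e) y))
      have hadd : ∀ t : ℤ, -(Dn : ℤ) ≤ t → i + (((t + Dn).toNat : ℕ) : ℤ) - Dn = i + t := by
        intro t ht; omega
      have := hr' x y hxy
      simp only at this
      rwa [hadd _ hx.1, hadd _ hy.1] at this
    exact isLocal_comp₂ (isLocal_act (hdom c) _) (isLocal_comp₂ (hExtl c i) hright fun p q => p ↔ q)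
      fun p q => p → q
  set rg : Finset ℤ := Finset.Icc (I₁ - D) (I₂ + D) with hrg
  obtain ⟨N, hN, hlev⟩ := a.exists_level ξ (a.compat_of_nonempty ξ hne)
    (fun w => ∀ q : K × C × rg, Cond q.1 q.2.1 q.2.2.1 w)
    (isLocal_comp (isLocal_pi fun q : K × C × rg => hCondl q.1 q.2.1 q.2.2.1) fun F => ∀ q, F q)
    (fun w hw q => hCondF _ _ _ w hw) (I₂ - I₁).toNat
  set P : ℕ := a.Q N with hP
  have hPle : I₂ - I₁ < P := by
    have := a.le_Q N
    omega
  have hP0 : 0 < P := a.Q_pos N
  -- lifts of the coordinate modulo `P`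
  set Lift : S.X → ℤ → Prop := fun x i => a.θ N x = ξ N + (i : ZMod (a.Q N)) with hLift
  set In : C → S.X → ℤ → Prop := fun c x i => Ext c i (S.act ((-i) • a.e) x) with hIn
  have hcondAll : ∀ (g : K) c (x : S.X), x ∈ dom c → ∀ i, Lift x i →
      (In c x i ↔ In (col g c x) (S.act (d g c x) x) (i + a.π (d g c x))) := by
    intro g c x hx i hi
    simp only [hIn, hrow2]
    by_cases hin : i ∈ rg
    · have hlev0 : a.θ N (S.act ((-i) • a.e) x) = ξ N := by
        rw [a.θ_act_e, hi]; push_cast; ring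
      have := hlev _ hlev0 (g, c, ⟨i, hin⟩)
      simp only [hCond, hback] at this
      exact this hx
    · rw [hrg, Finset.mem_Icc, not_and_or, not_le, not_le] at hin
      have h1 := abs_le.1 (hD (g, c) x)
      simp only at h1
      simp only [hExt]
      rcases hin with h | h
      · exact iff_of_false (by rintro (h' | ⟨h', -⟩) <;> omega)
          (by rintro (h' | ⟨h', -⟩) <;> omega)
      · exact iff_of_true (Or.inl (by omega)) (Or.inl (by omega))
  set low : S.X → ℤ := fun x => I₁ + ((a.θ N x - ξ N - (I₁ : ZMod (a.Q N))).val : ℤ) with hlow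
  have : NeZero (a.Q N) := ⟨(a.Q_pos N).ne'⟩
  have hlowl : ∀ x, Lift x (low x) := fun x => by
    simp only [hLift, hlow]
    push_cast
    rw [ZMod.natCast_zmod_val]
    ring
  have hlowb : ∀ x, I₁ ≤ low x ∧ low x < I₁ + P := fun x => by
    have := ZMod.val_lt (a.θ N x - ξ N - (I₁ : ZMod (a.Q N)))
    simp only [hlow]
    omega
  have hliftadd : ∀ x i (j : ℤ), Lift x i → Lift x (i + j * P) := fun x i j h => by
    simp only [hLift] at h ⊢
    rw [h, hP]
    push_cast
    rw [ZMod.natCast_self, mul_zero, add_zero]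
  set idx : C → S.X → ℤ := fun c x => if In c x (low x) then low x else low x + P with hidx
  have hidxb : ∀ c x, I₁ ≤ idx c x ∧ idx c x < I₁ + 2 * P := fun c x => by
    have := hlowb x
    simp only [hidx]; split <;> omega
  have hidxl : ∀ c x, Lift x (idx c x) := fun c x => by
    simp only [hidx]
    split
    · exact hlowl x
    · simpa using hliftadd x _ 1 (hlowl x)
  have hidxIn : ∀ c x, In c x (idx c x) ∧ ¬ In c x (idx c x - P) := by
    intro c x
    have := hlowb x
    simp only [hidx]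
    split
    · next h =>
      refine ⟨h, ?_⟩
      simp only [hIn, hExt]
      rintro (h' | ⟨h', -⟩) <;> omega
    · next h =>
      rw [add_sub_cancel_right]
      exact ⟨Or.inl (by omega), h⟩
  have hidxu : ∀ c x i, Lift x i → In c x i → ¬ In c x (i - P) → i = idx c x := by
    intro c x i hi h1 h2
    have hdiv : (P : ℤ) ∣ i - idx c x := by
      have := hi.symm.trans (hidxl c x)
      rw [add_right_inj] at this
      rw [hP, ← ZMod.intCast_zmod_eq_zero_iff_dvd]
      push_cast
      rw [this, sub_self]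
    obtain ⟨j, hj⟩ := hdiv
    have hb := hidxb c x
    obtain ⟨hi1, hi2⟩ := hidxIn c x
    have hlb := hlowb x
    rcases lt_trichotomy j 0 with hj0 | rfl | hj0
    · exfalso
      have hle : i ≤ idx c x - P := by nlinarith
      simp only [hidx] at hle hi2 hj
      split at hle
      · next h =>
        simp only [hIn, hExt] at h1
        rcases h1 with h' | ⟨h', -⟩ <;> omega
      · next h =>
        rcases eq_or_lt_of_le hle with he' | hlt
        · rw [he', add_sub_cancel_right] at h1; exact h h1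
        · rw [if_neg h] at hj
          have : i ≤ low x + (P : ℤ) - 2 * P := by
            rcases eq_or_lt_of_le (show j ≤ -1 by omega) with rfl | hj2
            · omega
            · nlinarith
          simp only [hIn, hExt] at h1
          rcases h1 with h' | ⟨h', -⟩ <;> omega
    · omega
    · exfalso
      have hge : idx c x + P ≤ i := by nlinarith
      rcases eq_or_lt_of_le hge with he' | hlt
      · rw [← he', add_sub_cancel_right] at h2; exact h2 hi1
      · have h2P : idx c x + 2 * P ≤ i := by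
          rcases eq_or_lt_of_le (show 1 ≤ j by omega) with rfl | hj2
          · omega
          · nlinarith
        refine h2 (Or.inl ?_)
        omega
  -- the new system
  set pv : Fin (2 * P) → ℤ := fun q => I₁ + ((q : ℕ) : ℤ) with hpv
  set dom' : C × Fin (2 * P) → Set S.X := fun cq => {w | a.θ N w = ξ N ∧
    S.act (pv cq.2 • a.e) w ∈ dom cq.1 ∧ idx cq.1 (S.act (pv cq.2 • a.e) w) = pv cq.2} with hdom'
  have hlowloc : ∀ v : V, S.IsLocal fun w => low (S.act v w) := fun v =>
    isLocal_comp (isLocal_act (a.θ_local N) v)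
      fun t => I₁ + ((t - ξ N - (I₁ : ZMod (a.Q N))).val : ℤ)
  have hdomloc : ∀ cq, S.IsLocal fun w => w ∈ dom' cq := by
    intro cq
    have hidxloc : S.IsLocal fun w => idx cq.1 (S.act (pv cq.2 • a.e) w) := by
      have hfin := finite_range (hlowloc (pv cq.2 • a.e))
      have hInl : ∀ i, S.IsLocal fun w => In cq.1 (S.act (pv cq.2 • a.e) w) i := fun i =>
        isLocal_act (isLocal_act (hExtl cq.1 i) ((-i) • a.e)) (pv cq.2 • a.e)
      obtain ⟨r₁, hr₁⟩ := hlowloc (pv cq.2 • a.e)
      obtain ⟨r₂, hr₂⟩ := isLocal_pi fun i : hfin.toFinset => hInl i.1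
      refine ⟨max r₁ r₂, fun x y h => ?_⟩
      have e1 : low (S.act (pv cq.2 • a.e) x) = low (S.act (pv cq.2 • a.e) y) :=
        localWith_mono (le_max_left _ _) hr₁ x y h
      have e2 := congrFun (localWith_mono (le_max_right _ _) hr₂ x y h)
        ⟨low (S.act (pv cq.2 • a.e) x), hfin.mem_toFinset.2 ⟨x, rfl⟩⟩
      simp only at e2
      simp only [hidx]
      rw [← e1]
      exact if_congr (iff_of_eq e2) rfl rfl
    exact isLocal_comp₂ (isLocal_comp (a.θ_local N) fun t => t = ξ N)
      (isLocal_comp₂ (isLocal_act (hdom cq.1) _) (isLocal_comp hidxloc fun t => t = pv cq.2) And)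
      And
  let qof : C → S.X → Fin (2 * P) := fun c x =>
    ⟨(idx c x - I₁).toNat, by have := hidxb c x; omega⟩
  have hpvq : ∀ c x, pv (qof c x) = idx c x := fun c x => by
    have := hidxb c x
    simp only [hpv, qof]
    omega
  let Ψ : Pt dom ≃ Pt dom' :=
    { toFun := fun p => ⟨((p.1.1, qof p.1.1 p.1.2), S.act ((-(idx p.1.1 p.1.2)) • a.e) p.1.2), by
        refine ⟨?_, ?_, ?_⟩
        · show a.θ N _ = _
          rw [a.θ_act_e, hidxl p.1.1 p.1.2]
          push_cast; ring
        · show S.act _ _ ∈ _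
          rw [hpvq, hback]; exact p.2
        · show idx _ _ = _
          rw [hpvq, hback]⟩
      invFun := fun p => ⟨(p.1.1.1, S.act (pv p.1.1.2 • a.e) p.1.2), p.2.2.1⟩
      left_inv := fun p => Subtype.ext (Prod.ext rfl (by
        show S.act (pv (qof _ _) • a.e) _ = _
        rw [hpvq, hback]))
      right_inv := fun p => by
        obtain ⟨⟨⟨c, q⟩, w⟩, h1, h2, h3⟩ := p
        refine Subtype.ext (Prod.ext (Prod.ext rfl (Fin.ext ?_)) ?_)
        · show (idx c (S.act (pv q • a.e) w) - I₁).toNat = (q : ℕ)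
          rw [h3]
          simp only [hpv]
          omega
        · show S.act ((-(idx c (S.act (pv q • a.e) w))) • a.e) (S.act (pv q • a.e) w) = w
          rw [h3, hforth] }
  refine ⟨C × Fin (2 * P), inferInstance, dom', Ψ.permCongrHom.toMonoidHom,
    Ψ.permCongrHom.injective, hdomloc, fun g hgK => ?_⟩
  set g' : K := ⟨g, hgK⟩ with hg'
  set newq : Fin (2 * P) → ℤ → Fin (2 * P) := fun q t =>
    if h : ((q : ℕ) : ℤ) + t < 2 * P then ⟨(((q : ℕ) : ℤ) + t).toNat, by omega⟩ else q with hnewq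
  refine ⟨fun cq w => (col g' cq.1 (S.act (pv cq.2 • a.e) w),
      newq cq.2 (a.π (d g' cq.1 (S.act (pv cq.2 • a.e) w)))),
    fun cq w => d g' cq.1 (S.act (pv cq.2 • a.e) w) -
      a.π (d g' cq.1 (S.act (pv cq.2 • a.e) w)) • a.e,
    fun cq => isLocal_prod (isLocal_act (hcol g' cq.1) _)
      (isLocal_comp (isLocal_act (hd g' cq.1) _) fun v => newq cq.2 (a.π v)),
    fun cq => isLocal_comp (isLocal_act (hd g' cq.1) _) fun v => v - a.π v • a.e,
    fun cq w => ⟨W.sub_mem (hW _ _ _) (W.zsmul_mem he _), by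
      show _ ∈ a.π.ker
      rw [AddMonoidHom.mem_ker, map_sub, a.π_zsmul, sub_self]⟩, ?_⟩
  rintro ⟨⟨⟨c, q⟩, w⟩, h1, h2, h3⟩
  simp only
  set x := S.act (pv q • a.e) w with hx
  set p : Pt dom := ⟨(c, x), h2⟩ with hp
  have hgp : (g p).1 = (col g' c x, S.act (d g' c x) x) := hg g' p
  show (Ψ (g p)).1 = _
  have hidxg : idx (col g' c x) (S.act (d g' c x) x) = pv q + a.π (d g' c x) := by
    refine (hidxu _ _ _ ?_ ?_ ?_).symm
    · show a.θ N _ = _
      rw [a.θ_act, show a.θ N x = ξ N + _ from h3 ▸ hidxl c x]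
      push_cast; ring
    · exact (hcondAll g' c x h2 _ (h3 ▸ hidxl c x)).1 (h3 ▸ (hidxIn c x).1)
    · intro hc
      have hl : Lift x (pv q - P) := by
        simpa [sub_eq_add_neg] using hliftadd x (pv q) (-1) (h3 ▸ hidxl c x)
      refine (h3 ▸ (hidxIn c x).2 : ¬ In c x (pv q - P)) ((hcondAll g' c x h2 _ hl).2 ?_)
      rwa [show pv q - (P : ℤ) + a.π (d g' c x) = pv q + a.π (d g' c x) - P by ring]
  show ((( (g p).1.1, qof (g p).1.1 (g p).1.2), S.act ((-(idx (g p).1.1 (g p).1.2)) • a.e)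
    (g p).1.2) : (C × Fin (2 * P)) × S.X) = _
  rw [hgp]
  have hb := hidxb (col g' c x) (S.act (d g' c x) x)
  rw [hidxg] at hb
  have hpq : pv q = I₁ + ((q : ℕ) : ℤ) := rfl
  have hnq : newq q (a.π (d g' c x)) = qof (col g' c x) (S.act (d g' c x) x) := by
    have hlt : ((q : ℕ) : ℤ) + a.π (d g' c x) < 2 * P := by omega
    simp only [hnewq, dif_pos hlt]
    apply Fin.ext
    show _ = (idx _ _ - I₁).toNat
    rw [hidxg, hpq]
    simp only
    omega
  refine Prod.ext (Prod.ext rfl hnq.symm) ?_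
  · simp only [hidxg, hrow2]
    rw [hx, hforth]

/-- Almost invariant front vectors reduce amenability to systems translating across the axis. -/
theorem reiter_of_fronts [Finite C] (hne : (a.fibre ξ).Nonempty)
    (hdom : ∀ c, S.IsLocal fun x => x ∈ dom c) {W : AddSubgroup V} (he : a.e ∈ W)
    (Γ : Subgroup (Equiv.Perm (Pt dom))) (hΓ : ∀ g ∈ Γ, Moves W g)
    (fronts : ∀ K : Finset (Equiv.Perm (Pt dom)), (∀ g ∈ K, g ∈ Γ) → ∀ ε : ℝ, 0 < ε →
      ∃ ν : Set (Pt dom) →₀ ℝ, IsProb ν ∧ (∀ U ∈ ν.support, a.Good ξ U) ∧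
        ∀ g ∈ K, n1 (mapDomain (fun U => g '' U) ν - ν) ≤ ε)
    (next : ∀ (C' : Type) [Finite C'] (dom' : C' → Set S.X),
      (∀ c, S.IsLocal fun x => x ∈ dom' c) → ∀ Γ' : Subgroup (Equiv.Perm (Pt dom')),
      (∀ g ∈ Γ', Moves (W ⊓ a.π.ker) g) → Reiter Γ') : Reiter Γ := by
  classical
  let Z : Type := {U : Set (Pt dom) // a.Good ξ U}
  let inst : MulAction Γ Z :=
    { smul := fun g U => ⟨g.1 '' U.1, U.2.image (hΓ _ g.2) (hΓ _ (Γ.inv_mem g.2))⟩
      one_smul := fun U => Subtype.ext (by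
        show ((1 : Γ) : Equiv.Perm (Pt dom)) '' U.1 = U.1
        simp)
      mul_smul := fun g h U => Subtype.ext (by
        show ((g * h : Γ) : Equiv.Perm (Pt dom)) '' U.1 = g.1 '' (h.1 '' U.1)
        rw [← Set.image_comp]
        rfl) }
  refine reiter_of_action (X := Z) (fun K ε hε => ?_) fun z => reiter_of_local fun K => ?_
  · obtain ⟨ν, hν, hgood, hK⟩ := fronts (K.image Subtype.val)
      (fun g hg => by obtain ⟨k, -, rfl⟩ := Finset.mem_image.1 hg; exact k.2) ε hε
    obtain ⟨U₀, hU₀⟩ : ν.support.Nonempty := by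
      rw [Finsupp.support_nonempty_iff]
      intro h
      have := hν.mass
      rw [h] at this
      simp at this
    set mk : Set (Pt dom) → Z := fun U =>
      if h : a.Good ξ U then ⟨U, h⟩ else ⟨U₀, hgood U₀ hU₀⟩ with hmk
    refine ⟨mapDomain mk ν, hν.map mk, fun g hg => le_trans (le_of_eq ?_)
      ((n1_mapDomain_le mk _).trans (hK g.1 (Finset.mem_image_of_mem _ hg)))⟩
    rw [mapDomain_sub, ← mapDomain_comp, ← mapDomain_comp]
    congr 2
    refine Finsupp.mapDomain_congr fun U hU => ?_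
    have h1 := hgood U hU
    simp only [Function.comp_apply, hmk, dif_pos h1,
      dif_pos (h1.image (hΓ _ g.2) (hΓ _ (Γ.inv_mem g.2)))]
    rfl
  · set K₀ : Finset Γ := K.image Subtype.val ∪ K.image fun k => (k.1)⁻¹ with hK₀
    have hstab : ∀ k ∈ K₀, k • z = z := by
      intro k hk
      rcases Finset.mem_union.1 hk with h | h <;> obtain ⟨l, -, rfl⟩ := Finset.mem_image.1 h
      · exact l.2
      · exact inv_smul_eq_iff.2 (MulAction.mem_stabilizer_iff.1 l.2).symm
    set K₁ : Set (Equiv.Perm (Pt dom)) := Subtype.val '' (↑K₀ : Set Γ) with hK₁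
    have hfix : ∀ g ∈ K₁, ∀ p, g p ∈ z.1 ↔ p ∈ z.1 := by
      rintro _ ⟨k, hk, rfl⟩ p
      have h : k.1 '' z.1 = z.1 := congrArg Subtype.val (hstab k hk)
      conv_lhs => rw [← h]
      exact k.1.injective.mem_set_image
    obtain ⟨C', hC', dom', Φ, hΦ, hdom', hmoves⟩ := slab a hne hdom he z.2
      (K₀.finite_toSet.image _) (by rintro _ ⟨k, -, rfl⟩; exact hΓ _ k.2) hfix
    let A : Subgroup (MulAction.stabilizer Γ z) := Subgroup.closure (↑K : Set _)
    refine ⟨A, Subgroup.subset_closure, ?_⟩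
    let f : A →* Equiv.Perm (Pt dom') :=
      Φ.comp (Γ.subtype.comp ((MulAction.stabilizer Γ z).subtype.comp A.subtype))
    have hfinj : Function.Injective f :=
      hΦ.comp (Subtype.val_injective.comp (Subtype.val_injective.comp Subtype.val_injective))
    have hrange : ∀ g ∈ f.range, Moves (W ⊓ a.π.ker) g := by
      rintro _ ⟨x, rfl⟩
      refine moves_of_mem_closure (K := Φ '' K₁) ?_ ?_ ?_
      · rintro _ ⟨g, hg, rfl⟩; exact hmoves g hg
      · rintro _ ⟨_, ⟨k, hk, rfl⟩, rfl⟩
        rw [← map_inv]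
        refine hmoves _ ⟨k⁻¹, ?_, rfl⟩
        rw [Finset.mem_coe, hK₀] at hk ⊢
        rcases Finset.mem_union.1 hk with h | h <;> obtain ⟨l, hl, rfl⟩ := Finset.mem_image.1 h
        · exact Finset.mem_union_right _ (Finset.mem_image.2 ⟨l, hl, rfl⟩)
        · exact Finset.mem_union_left _ (Finset.mem_image.2 ⟨l, hl, (inv_inv _).symm⟩)
      · have h : A ≤ (Subgroup.closure (Φ '' K₁)).comap
            (Φ.comp (Γ.subtype.comp (MulAction.stabilizer Γ z).subtype)) := by
          rw [Subgroup.closure_le]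
          intro k hk
          exact Subgroup.subset_closure ⟨k.1.1, ⟨k.1, Finset.mem_coe.2
            (Finset.mem_union_left _ (Finset.mem_image_of_mem _ hk)), rfl⟩, rfl⟩
        exact h x.2
    exact (next C' dom' hdom' f.range hrange).of_injective f.rangeRestrict fun x y h =>
      hfinj (congrArg Subtype.val h)

end Vale.Agent.P196.Amen
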