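import Vale.Agent.P196.Amen.One.Weights
import Vale.Agent.P196.Amen.Main

/-!
P196, module A: stage one, and with it the amenability of the group.
-/

noncomputable section

namespace Vale.Agent.P196.Amen

open Finsupp
open SFT.One

variable {S : SFT}

/-- A move of the full system is a full map. -/
theorem isFullMap_of_moves {k : ℕ} {g : Equiv.Perm (Pt (fullDom S k))} (hg : Moves ⊤ g) :
    S.IsFullMap ((fullEquiv S k).permCongr g) := by
  obtain ⟨col, d, hcol, hd, -, hg⟩ := hg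
  choose r hr using fun c => isLocal_prod (hcol c) (hd c)
  refine ⟨Finset.univ.sup r, fun i => ⟨col i, d i, ?_, ?_, fun x => ?_⟩⟩
  · exact fun x y h => congrArg Prod.fst
      (localWith_mono (Finset.le_sup (Finset.mem_univ i)) (hr i) x y h)
  · exact fun x y h => congrArg Prod.snd
      (localWith_mono (Finset.le_sup (Finset.mem_univ i)) (hr i) x y h)
  · exact hg ((fullEquiv S k).symm (i, x))

/-- A front, seen in the full system, is a good set. -/
theorem good_of_isFront {k : ℕ} {O : S.Odometer} {ξ : ∀ n, ZMod (O.Q n)}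
    {A : Set (Fin k × S.X)} (hA : S.IsFront₁ O ξ A) :
    (axis₁ O).Good ξ ((fun p : Pt (fullDom S k) => p.1) ⁻¹' A) := by
  obtain ⟨L, r, T, hT, hhi, hlo, rfl⟩ := hA
  refine ⟨fun p ⟨i, hi, _⟩ => ⟨i, hi⟩,
    ⟨-(L : ℤ), (L : ℤ) + 1, r + L + 1, by omega, fun p i hi h => ⟨i, hi, ?_⟩,
      fun p i hi h hp => ?_, fun p q i hp hq hc hag => ?_⟩⟩
  · rw [hhi i (by omega)]
    trivial
  · obtain ⟨j, hj, hjT⟩ := hp
    rw [row₁_unique (show p.1 ∈ S.row₁ O ξ i from hi) hj] at h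
    rw [hlo j h] at hjT
    exact hjT.elim
  · have key : ∀ s : Pt (fullDom S k), (axis₁ O).AtRow ξ s.1.2 i →
        (s ∈ (fun p : Pt (fullDom S k) => p.1) ⁻¹'
          {y | ∃ j, y ∈ S.row₁ O ξ j ∧ y ∈ T j} ↔ s.1 ∈ T i) := fun s hs =>
      ⟨fun ⟨j, hj, hjT⟩ => row₁_unique (show s.1 ∈ S.row₁ O ξ i from hs) hj ▸ hjT,
        fun h => ⟨i, hs, h⟩⟩
    rw [key p hp, key q hq]
    by_cases h1 : (L : ℤ) < i
    · simp [hhi i h1]
    by_cases h2 : i < -(L : ℤ)
    · simp [hlo i h2]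
    have hbox : S.AgreeOn (SFT.box r) p.1.2 q.1.2 := by
      have := one_agree_act (v := i • (axis₁ O).e) (U := SFT.box r) (fun u hu => ?_) hag
      · rwa [one_act_act, one_act_act, ← add_zsmul, add_neg_cancel, zero_zsmul, one_act_zero,
          one_act_zero] at this
      · rw [mem_box_iff, abs_le, abs_le] at hu ⊢
        simp only [axis₁, Prod.smul_mk, smul_eq_mul, mul_one, mul_zero, Prod.fst_add, Prod.snd_add]
        push_cast
        omega
    have e : q.1 = (p.1.1, q.1.2) := Prod.ext hc.symm rfl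
    rw [e]
    exact hT i p.1.1 _ _ hbox

/-- Stage one. -/
theorem stageOne : StageOne := by
  classical
  intro S O ξ _ hne hB k K hK ε hε
  set e := fullEquiv S k
  have hc : ∀ g ∈ K, ∃ r, Nonempty (Coords (e.permCongr g) r) ∧
      Nonempty (Coords (e.permCongr g)⁻¹ r) := by
    intro g hg
    obtain ⟨r, ⟨c⟩⟩ := exists_coords (isFullMap_of_moves (hK g hg).1)
    obtain ⟨r', ⟨c'⟩⟩ := exists_coords (isFullMap_of_moves (hK g hg).2)
    rw [show e.permCongr g⁻¹ = (e.permCongr g)⁻¹ from map_inv e.permCongrHom g] at c'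
    exact ⟨max r r', ⟨c.mono (le_max_left _ _)⟩, ⟨c'.mono (le_max_right _ _)⟩⟩
  choose! rad hcg hci using hc
  set r := K.sup rad + 1 with hr
  set δ := ε ^ 2 / (4 * (2000 * ((k : ℝ) + 1) * (r : ℝ) ^ 2)) with hδdef
  have hr0 : (0 : ℝ) < r := by rw [hr]; push_cast; positivity
  have hδ : 0 < δ := by positivity
  obtain ⟨n, m, R, ρ, w, C, E, h1, h2, h3, hsep, hper, hC, h4, h5, h6⟩ := hB (32 * r) δ hδ
  obtain ⟨B, hBr, hC, h4, h5, h6⟩ : ∃ B : Band S O ξ, B.r = r ∧
      (∀ e ∈ B.E, Nat.card (B.pats e) ≤ C) ∧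
      (O.Q B.n : ℝ) * B.E.card ≤ δ * B.ρ ∧
      (O.Q B.n : ℝ) * O.Q B.m ≤ δ * (B.R : ℝ) ^ 2 ∧
      (B.E.card : ℝ) * B.ρ * C ≤ δ * B.R :=
    ⟨{ n := n, m := m, R := R, ρ := ρ, w := w, E := E, r := r, r_pos := Nat.succ_pos _,
       r_R := h1, w_ρ := h2, ρ_Q := h3, sep := hsep, periodic := hper }, rfl, hC, h4, h5, h6⟩
  let Φ : (B.I k → ℤ) → Set (Pt (fullDom S k)) := fun ω =>
    (fun p : Pt (fullDom S k) => p.1) ⁻¹' B.front ω
  refine ⟨mapDomain Φ (B.law k), B.isProb_law.map Φ, fun U hU => ?_, fun g hg => ?_⟩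
  · obtain ⟨ω, -, rfl⟩ := Finset.mem_image.1 (mapDomain_support hU)
    exact good_of_isFront (B.isFront_front ω)
  have hle : rad g ≤ B.r := hBr ▸ (Finset.le_sup hg).trans (Nat.le_succ _)
  obtain ⟨cg⟩ := hcg g hg
  obtain ⟨ci⟩ := hci g hg
  have cg' := cg.mono hle
  have ci' := ci.mono hle
  have e1 : mapDomain (fun U => g '' U) (mapDomain Φ (B.law k)) =
      mapDomain (fun η => Φ (B.ext' η)) (Vec.prodVec fun d => Vec.sq (B.ampMoved hne ci' d)) := by
    rw [← B.law_moved hne ci' cg', ← mapDomain_comp, ← mapDomain_comp]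
    refine mapDomain_congr fun ω hω => ?_
    simp only [Function.comp_apply, Φ]
    rw [← B.front_moved hne ci' (B.good_of_mem hω), Equiv.image_eq_preimage_symm,
      Equiv.image_eq_preimage_symm]
    rfl
  have e2 : mapDomain Φ (B.law k) =
      mapDomain (fun η => Φ (B.ext' η)) (Vec.prodVec fun d => Vec.sq (B.amp (B.incl d))) := by
    rw [← B.law_incl, ← mapDomain_comp]
    refine mapDomain_congr fun ω hω => ?_
    simp only [Function.comp_apply, Φ]
    rw [B.front_restrict (B.good_of_mem hω)]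
  rw [e1, e2, ← mapDomain_sub]
  refine (n1_mapDomain_le _ _).trans ((B.n1_moved hne ci' hC h4 h5 h6).trans ?_)
  have h : 2000 * (k : ℝ) * (B.r : ℝ) ^ 2 * δ ≤ (ε / 2) ^ 2 := by
    rw [hBr]
    calc 2000 * (k : ℝ) * (r : ℝ) ^ 2 * δ ≤ 2000 * ((k : ℝ) + 1) * (r : ℝ) ^ 2 * δ := by
          gcongr; linarith
      _ = _ := by rw [hδdef]; field_simp; ring
  calc 2 * √(2000 * (k : ℝ) * (B.r : ℝ) ^ 2 * δ) ≤ 2 * √((ε / 2) ^ 2) :=
        mul_le_mul_of_nonneg_left (Real.sqrt_le_sqrt h) zero_le_two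
    _ = ε := by rw [Real.sqrt_sq (by linarith)]; ring

/-- Module A. -/
theorem amenable : AmenableStatement := amenable_of stageOne

end Vale.Agent.P196.Amen
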