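import Vale.Agent.P196.Amen.Slab
import Vale.Agent.P196.Amen.Product

/-!
P196, module A, stage two: moves translating only along the second coordinate have almost
invariant front vectors under strip counting; moves without translation form locally finite groups.
-/

noncomputable section

namespace Vale.Agent.P196.Amen

open Finset Finsupp

variable {S : SFT}

/-- Finitely many local functions have a common radius. -/
theorem exists_radius {ι : Type} [Finite ι] {β : ι → Type} {f : ∀ i, S.X → β i}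
    (hf : ∀ i, S.IsLocal (f i)) : ∃ r, ∀ i, S.LocalWith r (f i) := by
  choose r hr using hf
  have := Fintype.ofFinite ι
  exact ⟨univ.sup r, fun i => localWith_mono (le_sup (mem_univ i)) (hr i)⟩

/-- Agreement on a shifted box follows from agreement on a strip. -/
theorem agree_shift {r R j : ℕ} {i : ℤ} {z z' : S.X} (hr : j ≤ r) (hR : i.natAbs + j ≤ R)
    (h : S.AgreeOn (SFT.rect r R) z z') :
    S.AgreeOn (SFT.box j) (S.act (i • ((0, 1) : V)) z) (S.act (i • ((0, 1) : V)) z') := by
  intro u hu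
  rw [act_apply, act_apply]
  refine h _ ?_
  simp only [SFT.box, SFT.rect, Finset.mem_Icc, Prod.le_def, Prod.fst_add, Prod.snd_add,
    Prod.smul_fst, Prod.smul_snd, smul_eq_mul] at hu ⊢
  omega

/-- The angle of the row `t`: a quarter turn far below, zero far above. -/
def angle (L : ℕ) (t : ℤ) : ℝ :=
  Real.pi / 4 * (1 - (max (-(L : ℝ)) (min (L : ℝ) t)) / L)

theorem angle_mem {L : ℕ} (hL : 0 < L) (t : ℤ) : 0 ≤ angle L t ∧ angle L t ≤ Real.pi / 2 := by
  have hL' : (0 : ℝ) < L := by exact_mod_cast hL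
  have h1 : max (-(L : ℝ)) (min (L : ℝ) t) / L ≤ 1 := by
    rw [div_le_one hL']
    exact max_le (by linarith) (min_le_left _ _)
  have h2 : -1 ≤ max (-(L : ℝ)) (min (L : ℝ) t) / L := by
    rw [le_div_iff₀ hL', neg_one_mul]
    exact le_max_left _ _
  have hp := Real.pi_pos
  constructor <;> rw [angle] <;> nlinarith

theorem angle_high {L : ℕ} (hL : 0 < L) {t : ℤ} (ht : (L : ℤ) ≤ t) : angle L t = 0 := by
  have h : (L : ℝ) ≤ t := by exact_mod_cast ht
  have hL' : (0 : ℝ) < L := by exact_mod_cast hL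
  rw [angle, min_eq_left h, max_eq_right (by linarith), div_self hL'.ne']
  ring

theorem angle_low {L : ℕ} (hL : 0 < L) {t : ℤ} (ht : t ≤ -(L : ℤ)) :
    angle L t = Real.pi / 2 := by
  have h : (t : ℝ) ≤ -(L : ℝ) := by exact_mod_cast ht
  have hL' : (0 : ℝ) < L := by exact_mod_cast hL
  rw [angle, min_eq_right (by linarith), max_eq_left h, neg_div, div_self hL'.ne']
  ring

theorem angle_lip {L : ℕ} (hL : 0 < L) {s t : ℤ} {D : ℕ} (h : |s - t| ≤ D) :
    (angle L s - angle L t) ^ 2 ≤ (Real.pi / 4 * D / L) ^ 2 := by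
  have hL' : (0 : ℝ) < L := by exact_mod_cast hL
  have hD : |(t : ℝ) - s| ≤ D := by
    rw [abs_sub_comm]
    exact_mod_cast h
  have hmax : |max (-(L : ℝ)) (min (L : ℝ) t) - max (-(L : ℝ)) (min (L : ℝ) s)| ≤ D := by
    refine le_trans (abs_max_sub_max_le_max _ _ _ _) ?_
    rw [sub_self, abs_zero]
    refine max_le (by positivity) (le_trans (abs_min_sub_min_le_max _ _ _ _) ?_)
    rw [sub_self, abs_zero]
    exact max_le (by positivity) hD
  refine sq_le_sq.2 ?_
  rw [show angle L s - angle L t = Real.pi / 4 *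
    ((max (-(L : ℝ)) (min (L : ℝ) t) - max (-(L : ℝ)) (min (L : ℝ) s)) / L) by
      rw [angle, angle]; ring,
    abs_mul, abs_of_nonneg (show 0 ≤ Real.pi / 4 by positivity), abs_div, Nat.abs_cast,
    abs_of_nonneg (show 0 ≤ Real.pi / 4 * D / L by positivity), mul_div_assoc]
  gcongr

variable {C : Type}

/-- Stage two: almost invariant vectors on the front sets of the second coordinate. -/
theorem fronts_two [Finite C] (O : S.Odometer) (η : ∀ n, ZMod (O.Q n)) (hη : S.StripCount O η)
    {dom : C → Set S.X} (hdom : ∀ c, S.IsLocal fun x => x ∈ dom c) {W : AddSubgroup V}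
    (hW : ∀ v ∈ W, v.1 = 0) (K : Finset (Equiv.Perm (Pt dom))) (hK : ∀ g ∈ K, Moves W g⁻¹)
    (ε : ℝ) (hε : 0 < ε) :
    ∃ ν : Set (Pt dom) →₀ ℝ, IsProb ν ∧ (∀ U ∈ ν.support, (axis₂ O).Good η U) ∧
      ∀ g ∈ K, n1 (mapDomain (fun U => g '' U) ν - ν) ≤ ε := by
  classical
  set e : V := (0, 1) with he
  choose col d hcol hd hdW hgd using fun g : K => hK g.1 g.2
  have hdz : ∀ (g : K) c x, d g c x = (d g c x).2 • e := fun g c x =>
    Prod.ext (by rw [hW _ (hdW g c x)]; simp [he]) (by simp [he])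
  obtain ⟨r₁, hr₁⟩ := exists_radius fun q : K × C => hcol q.1 q.2
  obtain ⟨r₂, hr₂⟩ := exists_radius fun q : K × C => hd q.1 q.2
  obtain ⟨r₃, hr₃⟩ := exists_radius hdom
  obtain ⟨D, hD⟩ := exists_bound (C := K × C) (d := fun q => d q.1 q.2) (fun q => hd q.1 q.2)
    (AddMonoidHom.snd ℤ ℤ)
  have : Fintype C := Fintype.ofFinite C
  set r₀ := max r₁ (max r₂ r₃) with hr₀
  set r := 10 * (r₀ + D + 1) with hr
  set cst : ℝ := (Fintype.card C + 1 : ℝ) * (D + 1) ^ 2 * 120 with hcst
  obtain ⟨R, hrR, hcount⟩ := hη r (ε ^ 2 / cst) (by positivity)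
  set L := R / 2 with hL
  set M := L + D with hM
  have hL0 : 0 < L := by omega
  have hfit : M + 2 * D + r₀ ≤ R := by omega
  set pat : S.X → SFT.rect r R → S.A := fun z u => z.1 u.1 with hpat
  set P : Type := ↥(pat '' O.fibre₂ η) with hP
  have : Fintype P := Fintype.ofFinite P
  have hcard : (Fintype.card P : ℝ) ≤ ε ^ 2 / cst * R := by
    rw [← Nat.card_eq_fintype_card]
    exact hcount
  have hrep : ∀ p : P, ∃ z, z ∈ O.fibre₂ η ∧ pat z = p.1 := fun p => p.2
  choose rep hrepF hrepP using hrep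
  set toP : ∀ z, z ∈ O.fibre₂ η → P := fun z hz => ⟨pat z, z, hz, rfl⟩ with htoP
  have hagree : ∀ z (hz : z ∈ O.fibre₂ η), S.AgreeOn (SFT.rect r R) (rep (toP z hz)) z :=
    fun z hz u hu => congrFun (hrepP (toP z hz)) ⟨u, hu⟩
  -- membership, colour and displacement depend only on the pattern
  have hloc : ∀ (z : S.X) (hz : z ∈ O.fibre₂ η) (i : ℤ), i.natAbs + r₀ ≤ R → ∀ c,
      ((S.act (i • e) (rep (toP z hz)) ∈ dom c ↔ S.act (i • e) z ∈ dom c) ∧ ∀ g : K,
        col g c (S.act (i • e) (rep (toP z hz))) = col g c (S.act (i • e) z) ∧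
          d g c (S.act (i • e) (rep (toP z hz))) = d g c (S.act (i • e) z)) := by
    intro z hz i hi c
    have h := agree_shift (i := i) (j := r₀) (by omega) hi (hagree z hz)
    exact ⟨iff_of_eq (localWith_mono (by omega) (hr₃ c) _ _ h), fun g =>
      ⟨localWith_mono (by omega) (hr₁ (g, c)) _ _ h, localWith_mono (by omega) (hr₂ (g, c)) _ _ h⟩⟩
  let ι : Type := P × C × (Finset.Icc (-(M : ℤ)) M : Finset ℤ)
  let κ : Type := P × C × (Finset.Icc (-((M : ℤ) + D)) ((M : ℤ) + D) : Finset ℤ)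
  set inc : ι → κ := fun s => (s.1, s.2.1, ⟨s.2.2.1, by
    have := Finset.mem_Icc.1 s.2.2.2; rw [Finset.mem_Icc]; omega⟩) with hinc
  have hsplit : ∀ {a b : κ}, a = b → a.1 = b.1 ∧ a.2.1 = b.2.1 ∧ a.2.2.1 = b.2.2.1 := by
    rintro a b rfl
    exact ⟨rfl, rfl, rfl⟩
  have hincinj : Function.Injective inc := by
    intro s t h
    obtain ⟨h1, h2, h3⟩ := hsplit h
    exact Prod.ext h1 (Prod.ext h2 (Subtype.ext h3))
  set valid : ι → Prop := fun s => S.act (s.2.2.1 • e) (rep s.1) ∈ dom s.2.1 with hvalid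
  set σ : K → ι → κ := fun g s => if valid s then
      (s.1, col g s.2.1 (S.act (s.2.2.1 • e) (rep s.1)),
        ⟨s.2.2.1 + (d g s.2.1 (S.act (s.2.2.1 • e) (rep s.1))).2, by
          have h := Finset.mem_Icc.1 s.2.2.2
          have h2 := abs_le.1 (hD (g, s.2.1) (S.act (s.2.2.1 • e) (rep s.1)))
          simp only [AddMonoidHom.coe_snd] at h2
          rw [Finset.mem_Icc]
          omega⟩)
    else inc s with hσ
  -- the inverse move of a representative point
  have hmove : ∀ (g : K) (c : C) (z : S.X) (j : ℤ) (h : S.act (j • e) z ∈ dom c),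
      ((g : Equiv.Perm (Pt dom))⁻¹ ⟨(c, S.act (j • e) z), h⟩).1 =
        (col g c (S.act (j • e) z), S.act ((j + (d g c (S.act (j • e) z)).2) • e) z) := by
    intro g c z j h
    rw [hgd g ⟨(c, S.act (j • e) z), h⟩, act_act]
    simp only
    congr 3
    rw [add_smul, add_comm]
    conv_lhs => rw [hdz g c]
  have hσinj : ∀ g, Function.Injective (σ g) := by
    intro g s t h
    by_cases hs : valid s <;> by_cases ht : valid t
    · simp only [hσ, if_pos hs, if_pos ht] at h
      obtain ⟨hp, hc, hj⟩ := hsplit h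
      simp only at hp hc hj
      have e1 := hmove g s.2.1 (rep s.1) s.2.2.1 hs
      have e2 := hmove g t.2.1 (rep t.1) t.2.2.1 ht
      have e1' := e1.trans (show _ = (col g t.2.1 (S.act (t.2.2.1 • e) (rep t.1)),
        S.act ((t.2.2.1 + (d g t.2.1 (S.act (t.2.2.1 • e) (rep t.1))).2) • e) (rep t.1)) by
          rw [hc, hj, hp])
      have e3 := congrArg Subtype.val
        ((g : Equiv.Perm (Pt dom))⁻¹.injective (Subtype.ext (e1'.trans e2.symm)))
      simp only [Prod.mk.injEq] at e3
      have e4 : s.2.2.1 = t.2.2.1 := by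
        have h1 := (axis₂ O).atRow_of_mem (hrepF s.1) s.2.2.1
        have h2 := (axis₂ O).atRow_of_mem (hrepF t.1) t.2.2.1
        have h3 : (axis₂ O).AtRow η (S.act (s.2.2.1 • e) (rep s.1)) t.2.2.1 := by
          rw [e3.2]; exact h2
        exact Axis.AtRow.unique h1 h3
      exact Prod.ext hp (Prod.ext e3.1 (Subtype.ext e4))
    · exfalso
      refine ht ?_
      simp only [hσ, if_pos hs, if_neg ht, hinc] at h
      obtain ⟨hp, hc, hj⟩ := hsplit h
      simp only at hp hc hj
      have e1 := hmove g s.2.1 (rep s.1) s.2.2.1 hs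
      have h4 := ((g : Equiv.Perm (Pt dom))⁻¹
        ⟨(s.2.1, S.act (s.2.2.1 • e) (rep s.1)), hs⟩).2
      rw [e1, hc, hj, hp] at h4
      exact h4
    · exfalso
      refine hs ?_
      simp only [hσ, if_neg hs, if_pos ht, hinc] at h
      obtain ⟨hp, hc, hj⟩ := hsplit h
      simp only at hp hc hj
      have e1 := hmove g t.2.1 (rep t.1) t.2.2.1 ht
      have h4 := ((g : Equiv.Perm (Pt dom))⁻¹
        ⟨(t.2.1, S.act (t.2.2.1 • e) (rep t.1)), ht⟩).2
      rw [e1, ← hc, ← hj, ← hp] at h4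
      exact h4
    · simp only [hσ, if_neg hs, if_neg ht] at h
      exact hincinj h
  -- amplitudes and the random front
  set amp : κ → Bool → ℝ := fun s => coinAmp (angle L s.2.2.1) with hamp
  have hampP : IsAmp (β := fun _ : κ => Bool) amp :=
    ⟨fun s b => coinAmp_nonneg (angle_mem hL0 _).1 (angle_mem hL0 _).2 b, fun s => sum_coinAmp_sq _⟩
  set mem : (ι → Bool) → Set (Pt dom) := fun w => {p | ∃ j, (axis₂ O).AtRow η p.1.2 j ∧
    if h : j ∈ Finset.Icc (-(M : ℤ)) M then
      ∃ hz : S.act ((-j) • e) p.1.2 ∈ O.fibre₂ η, w (toP _ hz, p.1.1, ⟨j, h⟩) = true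
    else 0 < j} with hmem
  have hback : ∀ (x : S.X) (j : ℤ), S.act (j • e) (S.act ((-j) • e) x) = x := fun x j => by
    rw [act_act, neg_smul, add_neg_cancel, act_zero]
  have hmemiff : ∀ w (p : Pt dom) j (hj : (axis₂ O).AtRow η p.1.2 j), p ∈ mem w ↔
      if h : j ∈ Finset.Icc (-(M : ℤ)) M then
        w (toP _ (Axis.AtRow.mem_fibre hj), p.1.1, ⟨j, h⟩) = true
      else 0 < j := by
    intro w p j hj
    simp only [hmem, Set.mem_ofPred_eq]
    constructor
    · rintro ⟨j', hj', hh⟩
      obtain rfl := Axis.AtRow.unique hj hj'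
      split_ifs at hh ⊢ with h
      · exact hh.2
      · exact hh
    · intro hh
      refine ⟨j, hj, ?_⟩
      split_ifs at hh ⊢ with h
      · exact ⟨Axis.AtRow.mem_fibre hj, hh⟩
      · exact hh
  have hgood : ∀ w, (axis₂ O).Good η (mem w) := by
    intro w
    refine ⟨fun p hp => ⟨hp.choose, hp.choose_spec.1⟩, -(M : ℤ), M + 1, R, by omega,
      fun p i hi hi' => ?_, fun p i hi hi' => ?_, fun p q i hp hq hc hag => ?_⟩
    · rw [hmemiff w p i hi, dif_neg (by rw [Finset.mem_Icc]; omega)]; omega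
    · rw [hmemiff w p i hi, dif_neg (by rw [Finset.mem_Icc]; omega)]; omega
    · rw [hmemiff w p i hp, hmemiff w q i hq]
      have hpq : toP _ (Axis.AtRow.mem_fibre hp) = toP _ (Axis.AtRow.mem_fibre hq) :=
        Subtype.ext (funext fun u => hag u.1 (by
          have := u.2
          simp only [SFT.rect, SFT.box, Finset.mem_Icc, Prod.le_def] at this ⊢
          omega))
      simp only [hpq, hc]
  set ν := mapDomain mem (prodVec (β := fun _ : ι => Bool) fun s => amp (inc s)) with hν
  have hampI : ∀ f : ι → κ, IsAmp (β := fun _ : ι => Bool) fun s => amp (f s) := fun f =>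
    ⟨fun s => hampP.nonneg _, fun s => hampP.unit _⟩
  refine ⟨ν, (isProb_prodVec (hampI inc)).map mem, fun U hU => ?_, fun g hg => ?_⟩
  · obtain ⟨w, -, rfl⟩ := Finset.mem_image.1 (Finsupp.mapDomain_support hU)
    exact hgood w
  set g' : K := ⟨g, hg⟩ with hg'
  have hforced : ∀ x ∈ (prodVec (β := fun _ : κ => Bool) amp).support, ∀ s : κ,
      (s.2.2.1 ≤ -(L : ℤ) → x s = false) ∧ ((L : ℤ) ≤ s.2.2.1 → x s = true) := by
    intro x hx s
    have h := amp_ne_zero_of_mem_support hx s
    refine ⟨fun hs => ?_, fun hs => ?_⟩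
    · by_contra hc
      rw [Bool.not_eq_false] at hc
      exact h (by simp [hamp, hc, coinAmp, angle_low hL0 hs])
    · by_contra hc
      rw [Bool.not_eq_true] at hc
      exact h (by simp [hamp, hc, coinAmp, angle_high hL0 hs])
  have htrans : ∀ x ∈ (prodVec (β := fun _ : κ => Bool) amp).support,
      g '' mem (fun s => x (inc s)) = mem fun s => x (σ g' s) := by
    intro x hx
    ext p
    have hinv : p ∈ g '' mem (fun s => x (inc s)) ↔ g⁻¹ p ∈ mem fun s => x (inc s) :=
      ⟨fun ⟨q, hq, he⟩ => he ▸ by simpa using hq, fun h => ⟨_, h, Equiv.apply_symm_apply g p⟩⟩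
    rw [hinv]
    by_cases hrow : ∃ j, (axis₂ O).AtRow η p.1.2 j
    swap
    · refine iff_of_false (fun h => hrow ?_) fun h => hrow ⟨h.choose, h.choose_spec.1⟩
      obtain ⟨j, hj, -⟩ := h
      rw [hgd g' p] at hj
      have := hj.act (-(d g' p.1.1 p.1.2))
      rw [act_act, neg_add_cancel, act_zero] at this
      exact ⟨_, this⟩
    obtain ⟨j, hj⟩ := hrow
    set z := S.act ((-j) • e) p.1.2 with hz
    have hzF : z ∈ O.fibre₂ η := Axis.AtRow.mem_fibre hj
    set t := (d g' p.1.1 p.1.2).2 with ht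
    have hDb := abs_le.1 (hD (g', p.1.1) p.1.2)
    simp only [AddMonoidHom.coe_snd, ← ht] at hDb
    have hval : (g⁻¹ p).1 = (col g' p.1.1 p.1.2, S.act ((j + t) • e) z) := by
      have h := hmove g' p.1.1 z j (by rw [hz, hback]; exact p.2)
      simp only [hz, hback] at h
      exact h
    have hj' : (axis₂ O).AtRow η (g⁻¹ p).1.2 (j + t) := by
      rw [hval]; exact (axis₂ O).atRow_of_mem hzF _
    refine (hmemiff (fun s => x (inc s)) _ _ hj').trans
      (Iff.trans ?_ (hmemiff (fun s => x (σ g' s)) _ _ hj).symm)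
    have hz' : toP _ (Axis.AtRow.mem_fibre hj') = toP _ (Axis.AtRow.mem_fibre hj) := by
      apply Subtype.ext
      show pat (S.act ((-(j + t)) • e) (g⁻¹ p).1.2) = pat z
      rw [hval, act_act, neg_smul, neg_add_cancel, act_zero]
    simp only [hz']
    by_cases hin : j ∈ Finset.Icc (-(M : ℤ)) M
    · rw [dif_pos hin]
      have hjb := Finset.mem_Icc.1 hin
      have hl := hloc z hzF j (by omega) p.1.1
      have hv : valid (toP z hzF, p.1.1, ⟨j, hin⟩) := by
        refine hl.1.2 ?_
        rw [hz, hback]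
        exact p.2
      have hσv : σ g' (toP z hzF, p.1.1, ⟨j, hin⟩) =
          (toP z hzF, col g' p.1.1 p.1.2, ⟨j + t, by rw [Finset.mem_Icc]; omega⟩) := by
        have e1 := (hl.2 g').1
        have e2 := (hl.2 g').2
        rw [show S.act (j • e) z = p.1.2 by rw [hz, hback]] at e1 e2
        simp only [hσ, if_pos hv]
        refine Prod.ext rfl (Prod.ext ?_ (Subtype.ext ?_))
        · exact e1
        · show j + (d g' p.1.1 (S.act (j • e) (rep (toP z hzF)))).2 = j + t
          rw [ht, ← e2]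
      rw [show x (σ g' (toP _ (Axis.AtRow.mem_fibre hj), p.1.1, ⟨j, hin⟩)) =
        x (toP z hzF, col g' p.1.1 p.1.2, ⟨j + t, by rw [Finset.mem_Icc]; omega⟩) from
          congrArg x hσv]
      by_cases hin' : j + t ∈ Finset.Icc (-(M : ℤ)) M
      · rw [dif_pos hin']
        rw [hval]
        rfl
      · rw [dif_neg hin']
        rw [Finset.mem_Icc, not_and_or, not_le, not_le] at hin'
        obtain ⟨h1, h2⟩ := hforced x hx
          (toP z hzF, col g' p.1.1 p.1.2, ⟨j + t, by rw [Finset.mem_Icc]; omega⟩)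
        rcases hin' with h | h
        · rw [h1 (by simp only; omega)]
          simp only [Bool.false_eq_true, iff_false]
          omega
        · rw [h2 (by simp only; omega)]
          simp only [iff_true]
          omega
    · rw [dif_neg hin]
      rw [Finset.mem_Icc, not_and_or, not_le, not_le] at hin
      by_cases hin' : j + t ∈ Finset.Icc (-(M : ℤ)) M
      · rw [dif_pos hin']
        have hjb := Finset.mem_Icc.1 hin'
        obtain ⟨h1, h2⟩ := hforced x hx (inc (toP z hzF, (g⁻¹ p).1.1, ⟨j + t, hin'⟩))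
        rcases hin with h | h
        · rw [show x (inc (toP _ (Axis.AtRow.mem_fibre hj), (g⁻¹ p).1.1, ⟨j + t, hin'⟩)) = false from
            h1 (by simp only [hinc]; omega)]
          simp only [Bool.false_eq_true, false_iff]
          omega
        · rw [show x (inc (toP _ (Axis.AtRow.mem_fibre hj), (g⁻¹ p).1.1, ⟨j + t, hin'⟩)) = true from
            h2 (by simp only [hinc]; omega)]
          simp only [true_iff]
          omega
      · rw [dif_neg hin']
        rw [Finset.mem_Icc, not_and_or, not_le, not_le] at hin'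
        constructor <;> intro h <;> omega
  have heq : mapDomain (fun U => g '' U) ν =
      mapDomain mem (prodVec (β := fun _ : ι => Bool) fun s => amp (σ g' s)) := by
    rw [hν, ← mapDomain_prodVec hincinj hampP, ← mapDomain_prodVec (hσinj g') hampP,
      ← mapDomain_comp, ← mapDomain_comp, ← mapDomain_comp]
    exact Finsupp.mapDomain_congr htrans
  rw [heq, hν, ← mapDomain_sub]
  refine (n1_mapDomain_le _ _).trans ((n1_prodVec_sub_le (hampI _) (hampI _)).trans ?_)
  have hsum : ∑ s : ι, ∑ b, (amp (σ g' s) b - amp (inc s) b) ^ 2 ≤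
      Fintype.card ι * (Real.pi / 4 * D / L) ^ 2 := by
    refine (Finset.sum_le_card_nsmul _ _ _ fun s _ => ?_).trans (le_of_eq (nsmul_eq_mul _ _))
    refine (sum_coinAmp_sub_sq_le _ _).trans (angle_lip hL0 ?_)
    simp only [hσ]
    split
    · simp only [hinc]
      have h2 := hD (g', s.2.1) (S.act (s.2.2.1 • e) (rep s.1))
      simp only [AddMonoidHom.coe_snd] at h2
      rwa [add_sub_cancel_left]
    · simp
  have hcι : (Fintype.card ι : ℝ) = Fintype.card P * (Fintype.card C * (2 * M + 1)) := by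
    have h : ((M : ℤ) + 1 - -(M : ℤ)).toNat = 2 * M + 1 := by omega
    simp only [ι, Fintype.card_prod, Fintype.card_coe, Int.card_Icc, h]
    push_cast
    ring
  have hL1 : (R : ℝ) ≤ 3 * L := by
    have : R ≤ 3 * L := by omega
    exact_mod_cast this
  have hM1 : (2 * M + 1 : ℝ) ≤ 5 * L := by
    have : 2 * M + 1 ≤ 5 * L := by omega
    exact_mod_cast this
  have hL' : (0 : ℝ) < L := by exact_mod_cast hL0
  have hpi : Real.pi / 4 ≤ 1 := by linarith [Real.pi_le_four]
  have hkey : (Fintype.card ι : ℝ) * (Real.pi / 4 * D / L) ^ 2 ≤ (ε / 2) ^ 2 := by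
    have e1 : (Real.pi / 4 * D / L) ^ 2 ≤ ((D + 1 : ℝ) / L) ^ 2 := by
      refine pow_le_pow_left₀ (by positivity) (div_le_div_of_nonneg_right ?_ hL'.le) 2
      nlinarith [Real.pi_pos, Nat.cast_nonneg (α := ℝ) D]
    rw [hcι]
    calc _ ≤ ε ^ 2 / cst * R * (Fintype.card C * (5 * L)) * ((D + 1 : ℝ) / L) ^ 2 := by
          gcongr
      _ ≤ ε ^ 2 / cst * (3 * L) * ((Fintype.card C + 1) * (5 * L)) * ((D + 1 : ℝ) / L) ^ 2 := by
          gcongr
          linarith
      _ = ε ^ 2 * 15 / 120 := by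
          rw [hcst]
          field_simp
          ring
      _ ≤ (ε / 2) ^ 2 := by nlinarith
  calc 2 * Real.sqrt (∑ s : ι, ∑ b, (amp (σ g' s) b - amp (inc s) b) ^ 2)
      ≤ 2 * Real.sqrt ((ε / 2) ^ 2) :=
        mul_le_mul_of_nonneg_left (Real.sqrt_le_sqrt (hsum.trans hkey)) zero_le_two
    _ = ε := by rw [Real.sqrt_sq (by positivity)]; ring

/-- Moves without translation form locally finite groups. -/
theorem reiter_static [Finite C] {dom : C → Set S.X} {W : AddSubgroup V}
    (hW : ∀ v ∈ W, v = 0) (Γ : Subgroup (Equiv.Perm (Pt dom))) (hΓ : ∀ g ∈ Γ, Moves W g) :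
    Reiter Γ := by
  classical
  refine reiter_of_locally_finite fun K => ⟨Subgroup.closure (↑K : Set Γ),
    Subgroup.subset_closure, ?_⟩
  choose col d hcol hd hdW hgd using fun g : Γ => hΓ g.1 g.2
  obtain ⟨r, hr⟩ := exists_radius fun q : ↥(K ∪ K.image (·⁻¹)) × C => hcol q.1.1 q.2
  let Q : Γ → Prop := fun g => ∃ f : C → S.X → C,
    (∀ c, S.LocalWith r (f c)) ∧ ∀ p : Pt dom, (g.1 p).1 = (f p.1.1 p.1.2, p.1.2)
  have hQ : ∀ g ∈ Subgroup.closure (↑K : Set Γ), Q g := by
    intro g hg
    rw [← Subgroup.mem_toSubmonoid, Subgroup.closure_toSubmonoid] at hg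
    induction hg using Submonoid.closure_induction with
    | mem x hx =>
      have hx' : x ∈ K ∪ K.image (·⁻¹) := by
        rcases hx with hx | hx
        · exact Finset.mem_union_left _ hx
        · exact Finset.mem_union_right _ (Finset.mem_image.2 ⟨x⁻¹, hx, inv_inv x⟩)
      exact ⟨col x, fun c => hr (⟨x, hx'⟩, c), fun p => by
        rw [hgd x p, hW _ (hdW x _ _), act_zero]⟩
    | one => exact ⟨fun c _ => c, fun c _ _ _ => rfl, fun p => rfl⟩
    | mul x y _ _ ihx ihy =>
      obtain ⟨f, hf, hfx⟩ := ihx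
      obtain ⟨f', hf', hfy⟩ := ihy
      refine ⟨fun c z => f (f' c z) z, fun c z z' h => ?_, fun p => ?_⟩
      · simp only [hf' c z z' h, hf _ z z' h]
      · rw [Subgroup.coe_mul, Equiv.Perm.mul_apply, hfx, hfy]
  choose f hf hfg using hQ
  let code : Subgroup.closure (↑K : Set Γ) → (SFT.box r → S.A) → C → C := fun g pt c =>
    if h : ∃ x : S.X, (fun u : SFT.box r => x.1 u) = pt then f g.1 g.2 c h.choose else c
  have hinj : Function.Injective code := by
    intro g g' h
    refine Subtype.ext (Subtype.ext (Equiv.ext fun p => Subtype.ext ?_))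
    have h1 := congrFun (congrFun h fun u : SFT.box r => p.1.2.1 u) p.1.1
    have hex : ∃ x : S.X, (fun u : SFT.box r => x.1 u) = fun u : SFT.box r => p.1.2.1 u :=
      ⟨p.1.2, rfl⟩
    simp only [code, dif_pos hex] at h1
    have hag : S.AgreeOn (SFT.box r) hex.choose p.1.2 :=
      fun u hu => congrFun hex.choose_spec ⟨u, hu⟩
    rw [hf g.1 g.2 _ _ _ hag, hf g'.1 g'.2 _ _ _ hag] at h1
    rw [hfg g.1 g.2 p, hfg g'.1 g'.2 p, h1]
  exact Finite.of_injective code hinj

/-- The form of stage one: almost invariant vectors on the front sets of the first coordinate. -/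
def StageOne : Prop :=
  ∀ (S : SFT) (O : S.Odometer) (ξ : ∀ n, ZMod (O.Q n)), S.MinimalFree →
    (O.fibre₁ ξ).Nonempty → S.BandCount O ξ → ∀ k : ℕ,
    ∀ K : Finset (Equiv.Perm (Pt (fullDom S k))), (∀ g ∈ K, Moves ⊤ g ∧ Moves ⊤ g⁻¹) →
      ∀ ε : ℝ, 0 < ε → ∃ ν : Set (Pt (fullDom S k)) →₀ ℝ, IsProb ν ∧
        (∀ U ∈ ν.support, (axis₁ O).Good ξ U) ∧
          ∀ g ∈ K, n1 (mapDomain (fun U => g '' U) ν - ν) ≤ ε

end Vale.Agent.P196.Amen
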